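import Vale.Agent.P070.States

/-!
# P070: property (N), cut-offs and nested excision
-/

namespace Vale.Agent.P070

open scoped ComplexOrder InnerProductSpace
open Filter Topology

universe u

/-- Two representations are unitarily equivalent. -/
def UnitarilyEquivalent {A : Type*} [NonUnitalCStarAlgebra A] {H : Type*} [NormedAddCommGroup H]
    [InnerProductSpace ℂ H] [CompleteSpace H] {K : Type*} [NormedAddCommGroup K]
    [InnerProductSpace ℂ K] [CompleteSpace K] (π : A →⋆ₙₐ[ℂ] (H →L[ℂ] H))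
    (σ : A →⋆ₙₐ[ℂ] (K →L[ℂ] K)) : Prop :=
  ∃ U : H ≃ₗᵢ[ℂ] K, ∀ a x, U (π a x) = σ a (U x)

/-- The sequence asymptotically commutes with every element. -/
def AsymptoticallyCentral {A : Type*} [NonUnitalCStarAlgebra A] (x : ℕ → A) : Prop :=
  ∀ a, Tendsto (fun n => ‖x n * a - a * x n‖) atTop (𝓝 0)

/-- A bounded asymptotically central sequence. -/
def IsCentralSequence {A : Type*} [NonUnitalCStarAlgebra A] (x : ℕ → A) : Prop :=
  (∃ C : ℝ, ∀ n, ‖x n‖ ≤ C) ∧ AsymptoticallyCentral x

/-- Every bounded central sequence acts like a scalar along every free ultrafilter. -/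
def CentralSequencesScalar (A : Type*) [NonUnitalCStarAlgebra A] : Prop :=
  ∀ x : ℕ → A, IsCentralSequence x → ∀ ω : Ultrafilter ℕ, (ω : Filter ℕ) ≤ atTop →
    ∃ z : ℂ, ∀ a, Tendsto (fun n => ‖x n * a - z • a‖) (ω : Filter ℕ) (𝓝 0)

/-- Asymptotically central unital matrix units of order two. -/
def HasCentralMatrixUnits (A : Type*) [CStarAlgebra A] : Prop :=
  ∃ e : ℕ → A, (∀ n, e n * e n = 0) ∧ (∀ n, star (e n) * e n + e n * star (e n) = 1) ∧
    AsymptoticallyCentral e

/-- Property (N): nonzero, and all irreducible representations are unitarily equivalent. -/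
def HasN (A : Type u) [NonUnitalCStarAlgebra A] : Prop :=
  (∃ a : A, a ≠ 0) ∧
  ∀ (H : Type u) [NormedAddCommGroup H] [InnerProductSpace ℂ H] [CompleteSpace H]
    (K : Type u) [NormedAddCommGroup K] [InnerProductSpace ℂ K] [CompleteSpace K]
    (π : A →⋆ₙₐ[ℂ] (H →L[ℂ] H)) (σ : A →⋆ₙₐ[ℂ] (K →L[ℂ] K)),
    IsIrreducibleRep π → IsIrreducibleRep σ → UnitarilyEquivalent π σ

/-- Cut-off equal to `1` on `[3/4, 1]`. -/
noncomputable def fF (t : ℝ) : ℝ := min 1 (max 0 (4 * t - 2))

/-- Cut-off supported where `fF` is `1`. -/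
noncomputable def hW (t : ℝ) : ℝ := min 1 (max 0 (8 * t - 7))

/-- The quotient of `fF` by the identity. -/
noncomputable def gG (t : ℝ) : ℝ := fF t / max t (1 / 2)

theorem continuous_fF : Continuous fF := by unfold fF; fun_prop

theorem continuous_hW : Continuous hW := by unfold hW; fun_prop

theorem continuous_gG : Continuous gG :=
  continuous_fF.div (by fun_prop) fun t => by
    have := le_max_right t (1 / 2 : ℝ)
    linarith

theorem fF_mem (t : ℝ) : 0 ≤ fF t ∧ fF t ≤ 1 :=
  ⟨le_min zero_le_one (le_max_left _ _), min_le_left _ _⟩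

theorem gG_le (t : ℝ) : ‖gG t‖ ≤ 2 := by
  have h := fF_mem t
  have h2 := le_max_right t (1 / 2 : ℝ)
  rw [gG, Real.norm_eq_abs, abs_of_nonneg (div_nonneg h.1 (by linarith)),
    div_le_iff₀ (by linarith)]
  linarith

theorem id_mul_gG (t : ℝ) : fF t = t * gG t := by
  rcases le_total t (1 / 2) with h | h
  · have : fF t = 0 := by
      rw [fF, max_eq_left (by linarith), min_eq_right zero_le_one]
    simp [gG, this]
  · rw [gG, max_eq_left h]
    have : t ≠ 0 := by linarith
    field_simp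

theorem fF_mul_hW (t : ℝ) : fF t * hW t = hW t := by
  rcases le_total t (7 / 8) with h | h
  · have : hW t = 0 := by rw [hW, max_eq_left (by linarith), min_eq_right zero_le_one]
    simp [this]
  · have : fF t = 1 := by
      rw [fF, max_eq_right (by linarith), min_eq_left (by linarith)]
    simp [this]

variable {A : Type u} [NonUnitalCStarAlgebra A]

/-- Self-adjoint with `1` in the quasispectrum. -/
def Good (c : A) : Prop := IsSelfAdjoint c ∧ (1 : ℝ) ∈ quasispectrum ℝ c

/-- The element `fF c`. -/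
noncomputable def ee (c : A) : A := cfcₙ fF c

/-- The element `hW c`. -/
noncomputable def ww (c : A) : A := cfcₙ hW c

theorem ee_eq {c : A} (hc : Good c) : ee c = c * cfcₙ gG c := by
  rw [ee, cfcₙ_congr (g := fun t => t * gG t) (fun t _ => id_mul_gG t),
    cfcₙ_mul _ _ c (by fun_prop) (by simp) continuous_gG.continuousOn (by simp [gG, fF]),
    cfcₙ_id' ℝ c hc.1]

theorem ee_mul_ww {c : A} : ee c * ww c = ww c := by
  rw [ee, ww, ← cfcₙ_mul _ _ c continuous_fF.continuousOn (by simp [fF])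
    continuous_hW.continuousOn (by simp [hW])]
  exact cfcₙ_congr fun t _ => fF_mul_hW t

theorem norm_ee_le (c : A) : ‖ee c‖ ≤ 1 :=
  norm_cfcₙ_le fun x _ => by
    rw [Real.norm_eq_abs, abs_of_nonneg (fF_mem x).1]; exact (fF_mem x).2

theorem norm_ee {c : A} (hc : Good c) : ‖ee c‖ = 1 := by
  refine le_antisymm (norm_ee_le c) ?_
  have h := norm_apply_le_norm_cfcₙ fF c hc.2 continuous_fF.continuousOn (by simp [fF]) hc.1
  norm_num [fF] at h
  exact h

theorem norm_ww {c : A} (hc : Good c) : ‖ww c‖ = 1 := by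
  refine le_antisymm (norm_cfcₙ_le fun x _ => ?_) ?_
  · rw [Real.norm_eq_abs, abs_of_nonneg (le_min zero_le_one (le_max_left _ _))]
    exact min_le_left _ _
  · have h := norm_apply_le_norm_cfcₙ hW c hc.2 continuous_hW.continuousOn (by simp [hW]) hc.1
    norm_num [hW] at h
    exact h

theorem selfAdjoint_ww (c : A) : IsSelfAdjoint (ww c) := cfcₙ_predicate hW c

theorem good_normalize {x : A} (hx : x ≠ 0) :
    Good ((‖star x * x‖⁻¹ : ℝ) • (star x * x)) := by
  let := CStarAlgebra.spectralOrder A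
  have := CStarAlgebra.spectralOrderedRing A
  have hn : ‖star x * x‖ ≠ 0 := by
    rw [CStarRing.norm_star_mul_self]
    exact mul_ne_zero (norm_ne_zero_iff.2 hx) (norm_ne_zero_iff.2 hx)
  have h0 : 0 ≤ (‖star x * x‖⁻¹ : ℝ) • (star x * x) :=
    smul_nonneg (by positivity) (star_mul_self_nonneg x)
  refine ⟨IsSelfAdjoint.of_nonneg h0, ?_⟩
  let := CStarAlgebra.spectralOrder (Unitization ℂ A)
  have := CStarAlgebra.spectralOrderedRing (Unitization ℂ A)
  rw [Unitization.quasispectrum_eq_spectrum_inr' ℝ ℂ]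
  have h := CStarAlgebra.norm_mem_spectrum_of_nonneg
    (a := (((‖star x * x‖⁻¹ : ℝ) • (star x * x) : A) : Unitization ℂ A))
    (Unitization.inr_nonneg_iff.2 h0)
  rw [Unitization.norm_inr, norm_smul, Real.norm_of_nonneg (by positivity),
    inv_mul_cancel₀ hn] at h
  exact h

theorem fixed_of_inner {H : Type*} [NormedAddCommGroup H] [InnerProductSpace ℂ H] {ξ v : H}
    (hξ : ‖ξ‖ = 1) (h : ⟪ξ, v⟫_ℂ = 1) (hv : ‖v‖ ≤ 1) : v = ξ := by
  have e := norm_sub_sq (𝕜 := ℂ) v ξ
  rw [inner_re_symm, h, hξ, RCLike.one_re] at e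
  have : ‖v - ξ‖ = 0 := by nlinarith [norm_nonneg (v - ξ), norm_nonneg v]
  exact sub_eq_zero.1 (norm_eq_zero.1 this)

/-- A nested sequence has an irreducible representation with a common fixed unit vector. -/
theorem exists_fixed_vector (c : ℕ → A) (hc : ∀ k, Good (c k))
    (hnest : ∀ k, ee (c k) * ee (c (k + 1)) = ee (c (k + 1))) :
    ∃ (H : Type u) (_ : NormedAddCommGroup H) (_ : InnerProductSpace ℂ H) (_ : CompleteSpace H)
      (π : A →⋆ₙₐ[ℂ] (H →L[ℂ] H)) (ξ : H),
      IsIrreducibleRep π ∧ ‖ξ‖ = 1 ∧ ∀ k, π (ee (c k)) ξ = ξ := by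
  have hlt : ∀ j k, j < k → ee (c j) * ee (c k) = ee (c k) := by
    intro j k hjk
    induction k, hjk using Nat.le_induction with
    | base => exact hnest j
    | succ k hk ih => rw [← hnest k, ← mul_assoc, ih]
  let e : ℕ → Unitization ℂ A := fun k => ((ee (c k) : A) : Unitization ℂ A)
  have he : ∀ k, ‖e k‖ ≤ 1 := fun k => by rw [Unitization.norm_inr]; exact norm_ee_le _
  have single : ∀ k, ∃ φ ∈ states (Unitization ℂ A), φ (e k) = 1 := by
    intro k
    have hn : ‖e k‖ = 1 := by rw [Unitization.norm_inr]; exact norm_ee (hc k)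
    obtain ⟨g, hg, hge⟩ := exists_dual_vector'' ℂ (e k)
    rw [hn] at hge
    have hb : ∀ a, ‖g a‖ ≤ ‖a‖ := fun a =>
      (g.le_opNorm a).trans (by nlinarith [norm_nonneg a])
    have hsa : IsSelfAdjoint (e k) :=
      (cfcₙ_predicate fF (c k) : IsSelfAdjoint (ee (c k))).inr ℂ
    have hle : ‖((2 : ℝ) : ℂ) • e k - 1‖ ≤ 1 := by
      have e' : cfc (fun x : ℝ => 2 * x - 1) (e k) = ((2 : ℝ) : ℂ) • e k - 1 := by
        rw [cfc_sub .., cfc_const_mul .., cfc_id' ℝ (e k), cfc_const_one .., Complex.coe_smul]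
      rw [← e']
      refine norm_cfc_le zero_le_one fun x hx => ?_
      rw [← Unitization.quasispectrum_eq_spectrum_inr' ℝ ℂ, ee,
        cfcₙ_map_quasispectrum fF (c k) continuous_fF.continuousOn (by simp [fF]) (hc k).1] at hx
      obtain ⟨y, -, rfl⟩ := hx
      have := fF_mem y
      rw [Real.norm_eq_abs, abs_le]
      constructor <;> linarith
    refine ⟨g, ⟨hb, ?_⟩, by exact_mod_cast hge⟩
    have h2 := (Complex.re_le_norm _).trans ((hb _).trans hle)
    rw [map_sub, map_smul, hge] at h2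
    simp at h2
    have h3 := (hb 1).trans (le_of_eq norm_one)
    have e1 : (g 1).re = 1 := le_antisymm ((Complex.re_le_norm _).trans h3) (by linarith)
    have e2 : (g 1).im = 0 := by
      have := Complex.normSq_eq_norm_sq (g 1)
      rw [Complex.normSq_apply, e1] at this
      nlinarith [mul_self_nonneg (g 1).im, norm_nonneg (g 1)]
    exact Complex.ext e1 e2
  obtain ⟨φ, hφ, hφe⟩ := exists_extreme e he fun s => by
    obtain ⟨φ, hφ, hk⟩ := single (s.sup id + 1)
    refine ⟨φ, hφ, fun j hj => ?_⟩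
    obtain ⟨H, _, _, _, π, ξ, hξ, -, hinner⟩ := exists_cyclic hφ
    have fix : π (e (s.sup id + 1)) ξ = ξ := by
      refine fixed_of_inner hξ ((hinner _).symm.trans hk) ?_
      refine ((π _).le_opNorm ξ).trans ?_
      rw [hξ, mul_one]
      exact (NonUnitalStarAlgHom.norm_apply_le π _).trans (he _)
    have hj' : j < s.sup id + 1 := Nat.lt_succ_of_le (Finset.le_sup (f := id) hj)
    have e3 : e j * e (s.sup id + 1) = e (s.sup id + 1) := by
      simp only [e, ← Unitization.inr_mul, hlt j _ hj']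
    have fj : π (e j) ξ = ξ := by
      conv_lhs => rw [← fix]
      rw [← mul_apply_eq_comp, ← map_mul, e3, fix]
    rw [hinner, fj]
    calc ⟪ξ, ξ⟫_ℂ = ⟪ξ, π (e (s.sup id + 1)) ξ⟫_ℂ := by rw [fix]
      _ = 1 := (hinner _).symm.trans hk
  obtain ⟨H, i1, i2, i3, π, ξ, hξ, hd, hinner⟩ := exists_cyclic (hφ.1)
  have hfix : ∀ k, π (e k) ξ = ξ := fun k => by
    refine fixed_of_inner hξ ((hinner _).symm.trans (hφe k)) ?_
    refine ((π _).le_opNorm ξ).trans ?_
    rw [hξ, mul_one]
    exact (NonUnitalStarAlgHom.norm_apply_le π _).trans (he _)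
  refine ⟨H, i1, i2, i3,
    π.toNonUnitalStarAlgHom.comp (Unitization.inrNonUnitalStarAlgHom ℂ A), ξ,
    ⟨⟨ee (c 0), fun h0 => ?_⟩, fun K hK hinv => ?_⟩, hξ, fun k => hfix k⟩
  · have h := congrArg (fun T : H →L[ℂ] H => T ξ) h0
    simp at h
    have h' := (hfix 0).symm.trans h
    rw [h', norm_zero] at hξ
    exact one_ne_zero hξ.symm
  · refine extreme_irreducible hφ π hξ hd hinner K hK fun b x hx => ?_
    rw [← Unitization.inl_fst_add_inr_snd_eq b, map_add, add_apply]
    refine K.add_mem ?_ (hinv b.snd x hx)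
    rw [← Unitization.algebraMap_eq_inl, AlgHomClass.commutes, Algebra.algebraMap_eq_smul_one]
    exact K.smul_mem _ hx

end Vale.Agent.P070
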