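import Vale.Agent.P070.Basic

/-!
# P070: regular subalgebras, state extensions, elementary algebras
-/

namespace Vale.Agent.P070

open scoped ComplexOrder InnerProductSpace

universe u

/-- Isomorphic to the compact operators on a Hilbert space. -/
def IsElementary (A : Type u) [NonUnitalCStarAlgebra A] : Prop :=
  ∃ (H : Type u) (_ : NormedAddCommGroup H) (_ : InnerProductSpace ℂ H) (_ : CompleteSpace H)
    (π : A →⋆ₙₐ[ℂ] (H →L[ℂ] H)),
    Function.Injective π ∧ Set.range π = {T : H →L[ℂ] H | IsCompactOperator T}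

/-- `n` normalizes the subalgebra `D`. -/
def Normalizes {A : Type*} [NonUnitalCStarAlgebra A] (D : NonUnitalStarSubalgebra ℂ A) (n : A) :
    Prop :=
  star n * n ∈ D ∧ n * star n ∈ D ∧ ∀ d ∈ D, star n * d * n ∈ D ∧ n * d * star n ∈ D

/-- The normalizers span a dense subspace. -/
def IsRegular {A : Type*} [NonUnitalCStarAlgebra A] (D : NonUnitalStarSubalgebra ℂ A) : Prop :=
  (Submodule.span ℂ {n | Normalizes D n}).topologicalClosure = ⊤

/-- A positive contractive functional extending `χ`. -/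
def IsStateExtension {A : Type*} [NonUnitalCStarAlgebra A] {D : NonUnitalStarSubalgebra ℂ A}
    (χ : D →⋆ₙₐ[ℂ] ℂ) (ψ : A →L[ℂ] ℂ) : Prop :=
  ‖ψ‖ ≤ 1 ∧ (∀ a, 0 ≤ ψ (star a * a)) ∧ ∀ d : D, ψ d = χ d

/-- The character has only one extension to a state. -/
def HasUniqueExtension {A : Type*} [NonUnitalCStarAlgebra A] {D : NonUnitalStarSubalgebra ℂ A}
    (χ : D →⋆ₙₐ[ℂ] ℂ) : Prop :=
  ∀ ψ ω : A →L[ℂ] ℂ, IsStateExtension χ ψ → IsStateExtension χ ω → ψ = ω

end Vale.Agent.P070
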