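import Vale.Agent.P070.Tools
import Vale.Agent.P070.Defs

/-!
# P070: compact operators in the range of an irreducible representation
-/

namespace Vale.Agent.P070

open scoped ComplexOrder InnerProductSpace
open Filter Topology

universe u

section operators

variable {H : Type*} [NormedAddCommGroup H] [InnerProductSpace ℂ H] [CompleteSpace H]

/-- A subspace fixed pointwise by a compact operator is finite dimensional. -/
theorem finiteDimensional_of_fixed {T : H →L[ℂ] H} (hT : IsCompactOperator T) (M : Submodule ℂ H)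
    (h : ∀ x ∈ M, T x = x) : FiniteDimensional ℂ M := by
  have hV : ∀ x ∈ M.topologicalClosure, T x = x := fun x hx =>
    closure_minimal h (isClosed_eq T.continuous continuous_id) hx
  set V := M.topologicalClosure with hVdef
  have hVi : ∀ x ∈ V, (T : H →ₗ[ℂ] H) x ∈ V := fun x hx => by
    rw [show (T : H →ₗ[ℂ] H) x = x from hV x hx]; exact hx
  have hr := IsCompactOperator.restrict (f := (T : H →ₗ[ℂ] H)) hT hVi M.isClosed_topologicalClosure
  have hid : IsCompactOperator (id : V → V) := by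
    refine Eq.mp (congrArg IsCompactOperator ?_) hr
    funext x
    exact Subtype.ext (hV _ x.2)
  have : FiniteDimensional ℂ V := FiniteDimensional.of_isCompactOperator_id (𝕜 := ℂ) hid
  exact Submodule.finiteDimensional_of_le M.le_topologicalClosure

/-- Operators of finite rank are compact. -/
theorem isCompactOperator_of_range (T : H →L[ℂ] H) (W : Submodule ℂ H) [FiniteDimensional ℂ W]
    (h : ∀ x, T x ∈ W) : IsCompactOperator T := by
  have h1 : IsCompactOperator (T.codRestrict W h) :=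
    (isCompactOperator_of_locallyCompactSpace_rng (ContinuousLinearMap.id ℂ W)).comp_clm
      (T.codRestrict W h)
  exact h1.clm_comp W.subtypeL

/-- A finite-dimensional space whose orthogonal is almost killed by a compact operator. -/
theorem exists_small_on_orth {T : H →L[ℂ] H} (hT : IsCompactOperator T) {ε : ℝ} (hε : 0 < ε) :
    ∃ W : Submodule ℂ H, FiniteDimensional ℂ W ∧ ∀ u ∈ Wᗮ, ‖u‖ ≤ 1 → ‖T u‖ ^ 2 ≤ ε := by
  have hC : IsCompact (closure (T '' Metric.closedBall 0 1)) :=
    IsCompactOperator.isCompact_closure_image_closedBall (f := (T : H →ₗ[ℂ] H)) hT 1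
  obtain ⟨t, -, htf, hcov⟩ := finite_cover_balls_of_compact hC
    (div_pos hε (by positivity : 0 < ‖T‖ + 1))
  refine ⟨Submodule.span ℂ (⇑(star T) '' t), FiniteDimensional.span_of_finite ℂ (htf.image _),
    fun u hu hn => ?_⟩
  obtain ⟨z, hz, hzu⟩ := Set.mem_iUnion₂.1 (hcov (subset_closure
    ⟨u, by simpa using hn, rfl⟩))
  have h0 : ⟪z, T u⟫_ℂ = 0 := by
    rw [← ContinuousLinearMap.adjoint_inner_left, ← ContinuousLinearMap.star_eq_adjoint]
    exact Submodule.inner_right_of_mem_orthogonal (Submodule.subset_span (Set.mem_image_of_mem _ hz)) hu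
  rw [Metric.mem_ball, dist_eq_norm] at hzu
  have h1 : ‖T u‖ ^ 2 ≤ ‖T u - z‖ * ‖T u‖ := by
    have := norm_inner_le_norm (𝕜 := ℂ) (T u - z) (T u)
    rw [inner_sub_left, h0, sub_zero, inner_self_eq_norm_sq_to_K, norm_pow] at this
    simpa using this
  have h2 : ‖T u‖ ≤ ‖T‖ + 1 := by
    have := T.le_opNorm u
    have := norm_nonneg T
    nlinarith
  refine h1.trans ((mul_le_mul hzu.le h2 (norm_nonneg _) (by positivity)).trans_eq ?_)
  exact div_mul_cancel₀ ε (by positivity)

/-- A noncompact operator is bounded below somewhere orthogonally to each finite-dimensional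
subspace. -/
theorem exists_large_on_orth {T : H →L[ℂ] H} (hT : ¬IsCompactOperator T) :
    ∃ c > 0, ∀ W : Submodule ℂ H, FiniteDimensional ℂ W →
      ∃ u ∈ Wᗮ, ‖u‖ = 1 ∧ c < ‖T u‖ := by
  by_contra hcon
  push Not at hcon
  refine hT (isClosed_setOfPred_isCompactOperator.closure_subset
    (Metric.mem_closure_iff.2 fun ε hε => ?_))
  obtain ⟨W, hW, hle⟩ := hcon (ε / 2) (by linarith)
  refine ⟨T ∘L W.starProjection,
    (isCompactOperator_of_range W.starProjection W W.starProjection_apply_mem).clm_comp T, ?_⟩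
  rw [dist_eq_norm]
  refine lt_of_le_of_lt (ContinuousLinearMap.opNorm_le_bound _ (by linarith : (0 : ℝ) ≤ ε / 2)
    fun x => ?_) (by linarith)
  set v := x - W.starProjection x with hv
  have hvn : ‖v‖ ≤ ‖x‖ := by
    have hvo : v ∈ Wᗮ := W.sub_starProjection_mem_orthogonal x
    have h := norm_add_sq_eq_norm_sq_add_norm_sq_of_inner_eq_zero (𝕜 := ℂ) (W.starProjection x) v
      (Submodule.inner_right_of_mem_orthogonal (W.starProjection_apply_mem x) hvo)
    rw [show W.starProjection x + v = x by rw [hv]; abel] at h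
    nlinarith [norm_nonneg x, norm_nonneg v, mul_self_nonneg ‖W.starProjection x‖]
  have key : ‖T v‖ ≤ ε / 2 * ‖v‖ := by
    by_cases h0 : v = 0
    · simp [h0]
    have hmem : ((‖v‖ : ℂ)⁻¹ • v) ∈ Wᗮ :=
      Submodule.smul_mem _ _ (W.sub_starProjection_mem_orthogonal x)
    have h := hle _ hmem (norm_smul_inv_norm h0)
    rw [map_smul, norm_smul, norm_inv, Complex.norm_real, Real.norm_of_nonneg (norm_nonneg _),
      inv_mul_le_iff₀ (norm_pos_iff.2 h0)] at h
    linarith
  calc ‖(T - T ∘L W.starProjection) x‖ = ‖T v‖ := by simp [hv]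
    _ ≤ _ := key.trans (by gcongr)

end operators

variable {A : Type u} [NonUnitalCStarAlgebra A] {H : Type u} [NormedAddCommGroup H]
  [InnerProductSpace ℂ H] [CompleteSpace H] {π : A →⋆ₙₐ[ℂ] (H →L[ℂ] H)}

/-- In an algebra with property (N) an irreducible representation is injective. -/
theorem injective_of_hasN (hN : HasN A) (hπ : IsIrreducibleRep π) : Function.Injective π := by
  rw [injective_iff_map_eq_zero π]
  intro a ha
  by_contra h0
  obtain ⟨K, _, _, _, σ, hσ, hne⟩ := exists_irr h0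
  obtain ⟨U, hU⟩ := hN.2 H K π σ hπ hσ
  refine hne (ContinuousLinearMap.ext fun x => ?_)
  obtain ⟨y, rfl⟩ := U.surjective x
  rw [← hU, ha]
  simp

omit [CompleteSpace H] in
theorem norm_sq_eq_re {x : H} : ‖x‖ ^ 2 = (⟪x, x⟫_ℂ).re := by
  rw [inner_self_eq_norm_sq_to_K]; norm_cast

/-- In an algebra with property (N), one compact operator in the range makes all of it compact. -/
theorem compact_of_compact (hN : HasN A) (hπ : IsIrreducibleRep π) {j₀ : A} (hj₀ : π j₀ ≠ 0)
    (hc : IsCompactOperator (π j₀)) (a : A) : IsCompactOperator (π a) := by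
  by_contra ha
  obtain ⟨c, hc0, hbig⟩ := exists_large_on_orth ha
  let π' : Unitization ℂ A →⋆ₐ[ℂ] (H →L[ℂ] H) := Unitization.starLift π
  have hπ' : ∀ b : A, π' (b : Unitization ℂ A) = π b := fun b =>
    (Unitization.starLift_symm_apply_apply π' b).symm.trans
      (DFunLike.congr_fun (Unitization.starLift.symm_apply_apply π) b)
  let J := {j : A // IsCompactOperator (π j)}
  let B := Unitization ℂ A
  let sq : A → B := fun b => star (b : B) * (b : B)
  let g : WeakDual ℂ B → ℝ := fun ψ => (ψ (sq a)).re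
  have hgc : Continuous g := Complex.continuous_re.comp (WeakDual.eval_continuous _)
  set F : Set (WeakDual ℂ B) := {ψ | ψ ∈ states B ∧ ∀ j : J, (ψ (sq j.1)).re ≤ 0} with hF
  have hclF : ∀ j : A, IsClosed {ψ : WeakDual ℂ B | (ψ (sq j)).re ≤ 0} := fun j =>
    isClosed_le (Complex.continuous_re.comp (WeakDual.eval_continuous _)) continuous_const
  have hFc : IsCompact F := by
    refine isCompact_states.inter_right ?_
    show IsClosed {ψ : WeakDual ℂ B | ∀ j : J, (ψ (sq j.1)).re ≤ 0}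
    rw [Set.ofPred_forall]
    exact isClosed_iInter fun j => hclF j.1
  have hex : ∃ ψ ∈ F, c ^ 2 ≤ g ψ := by
    have hK : IsCompact (states B ∩ {ψ | c ^ 2 ≤ g ψ}) :=
      isCompact_states.inter_right (isClosed_le continuous_const hgc)
    obtain ⟨ψ, ⟨h1, h2⟩, h3⟩ := hK.inter_iInter_nonempty
      (fun i : J × ℕ => {ψ : WeakDual ℂ B | (ψ (sq i.1.1)).re ≤ 1 / (i.2 + 1)})
      (fun i => isClosed_le (Complex.continuous_re.comp (WeakDual.eval_continuous _))
        continuous_const) fun s => by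
        have hW : ∀ i : J × ℕ, ∃ W : Submodule ℂ H, FiniteDimensional ℂ W ∧
            ∀ u ∈ Wᗮ, ‖u‖ ≤ 1 → ‖π i.1.1 u‖ ^ 2 ≤ 1 / ((i.2 : ℝ) + 1) :=
          fun i => exists_small_on_orth i.1.2 (by positivity)
        choose W hWf hWs using hW
        have : ∀ i, FiniteDimensional ℂ (W i) := hWf
        obtain ⟨u, hu, hun, hcu⟩ := hbig (s.sup W) (Submodule.finiteDimensional_finset_sup s W)
        obtain ⟨ψ, hψ, hψe⟩ := exists_vector_state π' hun
        have hval : ∀ b : A, (ψ (sq b)).re = ‖π b u‖ ^ 2 := fun b => by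
          rw [hψe, map_mul, map_star, hπ', ContinuousLinearMap.star_eq_adjoint,
            mul_apply_eq_comp, ContinuousLinearMap.adjoint_inner_right, ← norm_sq_eq_re]
        refine ⟨ψ, ⟨hψ, ?_⟩, Set.mem_iInter₂.2 fun i hi => ?_⟩
        · show c ^ 2 ≤ (ψ (sq a)).re
          rw [hval]; gcongr
        · show (ψ (sq i.1.1)).re ≤ _
          rw [hval]
          exact hWs i u (Submodule.orthogonal_le (Finset.le_sup (f := W) hi) hu) hun.le
    refine ⟨ψ, ⟨h1, fun j => ?_⟩, h2⟩
    refine le_of_forall_pos_le_add fun δ hδ => ?_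
    obtain ⟨n, hn⟩ := exists_nat_one_div_lt hδ
    have := Set.mem_iInter.1 h3 (j, n)
    simp only [Set.mem_ofPred_eq] at this
    linarith
  obtain ⟨ψ0, hψ0, hgψ0⟩ := hex
  obtain ⟨ψm, hψm, hmax⟩ := hFc.exists_isMaxOn ⟨ψ0, hψ0⟩ hgc.continuousOn
  set G : Set (WeakDual ℂ B) := {ψ | ψ ∈ F ∧ g ψm ≤ g ψ} with hG
  have hGc : IsCompact G := hFc.inter_right (isClosed_le continuous_const hgc)
  have hext : IsExtreme ℝ (states B) G := by
    refine ⟨fun φ hφ => hφ.1.1, fun φ₁ h₁ φ₂ h₂ φ hφ hseg => ?_⟩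
    obtain ⟨s, t, hs, ht, hst, rfl⟩ := hseg
    have happ : ∀ x, ((s • φ₁ + t • φ₂) x).re = s * (φ₁ x).re + t * (φ₂ x).re := fun x => by
      rw [show (s • φ₁ + t • φ₂) x = s • φ₁ x + t • φ₂ x from rfl]
      simp only [Complex.add_re, Complex.real_smul, Complex.re_ofReal_mul]
    have hnn : ∀ φ' ∈ states B, ∀ j : A, 0 ≤ (φ' (sq j)).re := fun φ' h j =>
      (Complex.nonneg_iff.1 (state_nonneg h _)).1
    have hz : ∀ j : J, (φ₁ (sq j.1)).re ≤ 0 ∧ (φ₂ (sq j.1)).re ≤ 0 := fun j => by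
      have h := hφ.1.2 j
      rw [happ] at h
      have n1 := hnn φ₁ h₁ j.1
      have n2 := hnn φ₂ h₂ j.1
      constructor <;> nlinarith
    have e1 : g φ₁ ≤ g ψm := hmax ⟨h₁, fun j => (hz j).1⟩
    have e2 : g φ₂ ≤ g ψm := hmax ⟨h₂, fun j => (hz j).2⟩
    refine ⟨⟨h₁, fun j => (hz j).1⟩, ?_⟩
    have h := hφ.2
    simp only [g, happ] at h e1 e2 ⊢
    have k1 := mul_le_mul_of_nonneg_left e2 ht.le
    have k2 : (s + t) * (ψm (sq a)).re = (ψm (sq a)).re := by rw [hst, one_mul]
    refine le_of_mul_le_mul_left ?_ hs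
    linarith
  have : LocallyConvexSpace ℝ (WeakDual ℂ B) :=
    inferInstanceAs (LocallyConvexSpace ℝ (WeakBilin (topDualPairing ℂ B)))
  obtain ⟨φ, hφ⟩ := hGc.extremePoints_nonempty ⟨ψm, hψm, le_rfl⟩
  have hφx := hext.extremePoints_subset_extremePoints hφ
  obtain ⟨K, _, _, _, ρ, ξ, hξ, hd, hin⟩ := exists_cyclic hφx.1
  let σ : A →⋆ₙₐ[ℂ] (K →L[ℂ] K) :=
    ρ.toNonUnitalStarAlgHom.comp (Unitization.inrNonUnitalStarAlgHom ℂ A)
  have hval : ∀ b : B, (φ (star b * b)).re = ‖ρ b ξ‖ ^ 2 := fun b => by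
    rw [hin, map_mul, map_star, ContinuousLinearMap.star_eq_adjoint, mul_apply_eq_comp,
      ContinuousLinearMap.adjoint_inner_right, ← norm_sq_eq_re]
  have hgpos : 0 < g φ := by
    have h1 := hmax hψ0
    have h2 : g ψm ≤ g φ := hφ.1.2
    have h3 : (0 : ℝ) < c ^ 2 := by positivity
    simp only [Set.mem_ofPred_eq] at h1
    linarith
  have hσ : IsIrreducibleRep σ := by
    refine ⟨⟨a, fun h0 => ?_⟩, fun L hL hinv => extreme_irreducible hφx ρ hξ hd hin L hL
      fun b x hx => ?_⟩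
    · have : ρ (a : B) ξ = 0 := by
        show σ a ξ = 0
        rw [h0]; rfl
      simp only [g, sq, hval, this, norm_zero] at hgpos
      norm_num at hgpos
    · rw [← Unitization.inl_fst_add_inr_snd_eq b, map_add, add_apply]
      refine L.add_mem ?_ (hinv b.snd x hx)
      rw [← Unitization.algebraMap_eq_inl, AlgHomClass.commutes, Algebra.algebraMap_eq_smul_one]
      exact L.smul_mem _ hx
  have hkill : σ j₀ = 0 := by
    refine ContinuousLinearMap.ext fun x => ?_
    refine hd.induction_on x (isClosed_eq (σ j₀).continuous continuous_const) fun b => ?_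
    set j' : A := ((j₀ : B) * b).snd with hj'
    have hjb : (j₀ : B) * b = ((j' : A) : B) :=
      Unitization.ext (by simp [B]) (by simp [hj'])
    have hcomp : IsCompactOperator (π j') := by
      rw [show π j' = π j₀ * π' b by rw [← hπ', ← hjb, map_mul, hπ']]
      exact hc.comp_clm (π' b)
    have h0 := hφ.1.1.2 ⟨j', hcomp⟩
    simp only [sq, hval] at h0
    show ρ (j₀ : B) (ρ b ξ) = 0
    rw [← mul_apply_eq_comp, ← map_mul, hjb]
    exact norm_eq_zero.1 (pow_eq_zero_iff two_ne_zero |>.1 (le_antisymm h0 (sq_nonneg _)))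
  obtain ⟨U, hU⟩ := hN.2 H K π σ hπ hσ
  refine hj₀ (ContinuousLinearMap.ext fun x => U.injective ?_)
  rw [hU, hkill]
  simp

/-- An irreducible injective representation by compact operators has every compact operator in
its range. -/
theorem range_eq_compacts (hπ : IsIrreducibleRep π) (hinj : Function.Injective π)
    (hall : ∀ a, IsCompactOperator (π a)) :
    Set.range π = {T : H →L[ℂ] H | IsCompactOperator T} := by
  classical
  refine Set.Subset.antisymm (by rintro _ ⟨a, rfl⟩; exact hall a) fun T hT => ?_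
  have hclosed : IsClosed (Set.range π) :=
    (NonUnitalStarAlgHom.isometry π hinj).isClosedEmbedding.isClosed_range
  let Rk : A → Submodule ℂ H := fun s => LinearMap.range (π s : H →ₗ[ℂ] H)
  have hP : ∃ n, ∃ s : A, IsSelfAdjoint s ∧ s ≠ 0 ∧ FiniteDimensional ℂ (Rk s) ∧
      Module.finrank ℂ (Rk s) = n := by
    obtain ⟨a, ha⟩ := hπ.1
    have ha0 : a ≠ 0 := fun h => ha (by rw [h, map_zero])
    have hc := good_normalize ha0
    refine ⟨_, ww ((‖star a * a‖⁻¹ : ℝ) • (star a * a)), selfAdjoint_ww _, fun h => ?_,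
      finiteDimensional_of_fixed (hall (ee ((‖star a * a‖⁻¹ : ℝ) • (star a * a)))) _ ?_, rfl⟩
    · have := norm_ww hc
      rw [h, norm_zero] at this
      exact zero_ne_one this
    · rintro _ ⟨x, rfl⟩
      show π (ee _) (π (ww _) x) = π (ww _) x
      rw [← mul_apply_eq_comp, ← map_mul, ee_mul_ww]
  obtain ⟨w, hws, hw0, hwf, hwn⟩ := Nat.find_spec hP
  have hmin : ∀ s : A, IsSelfAdjoint s → Rk s < Rk w → s = 0 := fun s hs hlt => by
    by_contra h0
    have : FiniteDimensional ℂ (Rk s) := Submodule.finiteDimensional_of_le hlt.le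
    have h1 := Submodule.finrank_lt_finrank_of_lt hlt
    have h2 := Nat.find_min' hP ⟨s, hs, h0, inferInstance, rfl⟩
    omega
  set M := Rk w with hM
  have hsym : ∀ s : A, IsSelfAdjoint s → ∀ x y : H, ⟪π s x, y⟫_ℂ = ⟪x, π s y⟫_ℂ :=
    fun s hs x y => by rw [inner_map_star', hs.star_eq]
  have eig : ∀ s : A, IsSelfAdjoint s → Rk s ≤ M → ∃ μ : ℝ, ∃ v ∈ M, v ≠ 0 ∧
      π s v = (μ : ℂ) • v := by
    intro s hs hle
    let S : M →ₗ[ℂ] M := LinearMap.codRestrict M ((π s : H →ₗ[ℂ] H).comp M.subtype)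
      fun x => hle ⟨x.1, rfl⟩
    have : Nontrivial M := by
      obtain ⟨x, hx⟩ : ∃ x, π w x ≠ 0 := by
        by_contra h
        push Not at h
        exact hw0 (hinj (by rw [map_zero]; exact ContinuousLinearMap.ext fun x => by simpa using h x))
      exact ⟨⟨π w x, ⟨x, rfl⟩⟩, 0, fun h => hx (congrArg Subtype.val h)⟩
    obtain ⟨μ, hμ⟩ := Module.End.exists_eigenvalue S
    obtain ⟨v, hv⟩ := hμ.exists_hasEigenvector
    have hsv : π s v.1 = μ • v.1 := congrArg Subtype.val hv.apply_eq_smul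
    have hv0 : (v.1 : H) ≠ 0 := fun h => hv.2 (Subtype.ext h)
    have hreal : (starRingEnd ℂ) μ = μ := by
      have h := hsym s hs v.1 v.1
      rw [hsv, inner_smul_left, inner_smul_right] at h
      exact mul_right_cancel₀ (inner_self_ne_zero.2 hv0) h
    obtain ⟨r, hr⟩ := Complex.conj_eq_iff_real.1 hreal
    exact ⟨r, v.1, v.2, hv0, by rw [hsv, hr]⟩
  obtain ⟨μ, v, hvM, hv0, hwv⟩ := eig w hws le_rfl
  have hμ : (μ : ℂ) ≠ 0 := fun h0 => by
    obtain ⟨y, rfl⟩ := hvM
    rw [h0, zero_smul] at hwv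
    refine hv0 (inner_self_eq_zero (𝕜 := ℂ).1 ?_)
    show ⟪π w y, π w y⟫_ℂ = 0
    rw [hsym w hws]
    exact (congrArg (fun z => ⟪y, z⟫_ℂ) hwv).trans (inner_zero_right _)
  have proper : ∀ s : A, Rk s ≤ M → ∀ u : A, ∀ (ν : ℂ) (e : H), e ∈ M → e ≠ 0 → π u e = 0 →
      (∀ x ∈ M, π u x ∈ M) → (∀ x, π s x ∈ (M.map (π u : H →ₗ[ℂ] H))) → Rk s < M := by
    intro s _ u _ e he he0 hue hMu hsub
    have hle : Rk s ≤ M.map (π u : H →ₗ[ℂ] H) := by rintro _ ⟨x, rfl⟩; exact hsub x
    refine hle.trans_lt (lt_of_le_of_ne (Submodule.map_le_iff_le_comap.2 hMu) fun heq => ?_)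
    let S : M →ₗ[ℂ] M := (π u : H →ₗ[ℂ] H).restrict hMu
    have hsurj : Function.Surjective S := fun x => by
      obtain ⟨y, hy, hyx⟩ := (heq.symm ▸ x.2 : x.1 ∈ M.map (π u : H →ₗ[ℂ] H))
      exact ⟨⟨y, hy⟩, Subtype.ext hyx⟩
    have hS : S ⟨e, he⟩ = 0 := Subtype.ext hue
    exact he0 (congrArg Subtype.val
      (((LinearMap.injective_iff_surjective).2 hsurj) (hS.trans S.map_zero.symm)))
  have hwM : ∀ x, π w x ∈ M := fun x => ⟨x, rfl⟩
  have hsq : w * w - (μ : ℂ) • w = 0 := by
    have hs : IsSelfAdjoint (w * w - (μ : ℂ) • w) := by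
      refine IsSelfAdjoint.sub ?_ (IsSelfAdjoint.smul (by simp [IsSelfAdjoint]) hws)
      rw [IsSelfAdjoint, star_mul, hws.star_eq]
    have happ : ∀ x, π (w * w - (μ : ℂ) • w) x = π w (π w x) - (μ : ℂ) • π w x := fun x => by
      rw [map_sub, map_mul, map_smul]; rfl
    refine hmin _ hs ?_
    have hle : Rk (w * w - (μ : ℂ) • w) ≤ M := by
      rintro _ ⟨x, rfl⟩
      show π (w * w - (μ : ℂ) • w) x ∈ M
      rw [happ]
      exact M.sub_mem (hwM _) (M.smul_mem _ (hwM _))
    refine lt_of_le_of_ne hle fun heq => ?_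
    let S : M →ₗ[ℂ] M :=
      LinearMap.codRestrict M ((π w : H →ₗ[ℂ] H).comp M.subtype - (μ : ℂ) • M.subtype)
        fun x => M.sub_mem (hwM _) (M.smul_mem _ x.2)
    have hsurj : Function.Surjective S := fun x => by
      obtain ⟨y, hy⟩ : x.1 ∈ Rk (w * w - (μ : ℂ) • w) := by rw [heq]; exact x.2
      refine ⟨⟨π w y, hwM y⟩, Subtype.ext ?_⟩
      exact (happ y).symm.trans hy
    have hS : S ⟨v, hvM⟩ = 0 := Subtype.ext (by simp [S, hwv])
    exact hv0 (congrArg Subtype.val
      (((LinearMap.injective_iff_surjective).2 hsurj) (hS.trans S.map_zero.symm)))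
  obtain ⟨p, hp⟩ : ∃ p : A, p = (μ : ℂ)⁻¹ • w := ⟨_, rfl⟩
  have hpe : ∀ x, π p x ∈ M := fun x => by
    rw [hp, map_smul, smul_apply]; exact M.smul_mem _ (hwM x)
  have hpid : ∀ x ∈ M, π p x = x := by
    rintro _ ⟨y, rfl⟩
    show π p (π w y) = π w y
    have h : π (w * w) y = π ((μ : ℂ) • w) y := by rw [sub_eq_zero.1 hsq]
    rw [map_mul, mul_apply_eq_comp, map_smul, smul_apply] at h
    rw [hp, map_smul, smul_apply, h, inv_smul_smul₀ hμ]
  have hps : IsSelfAdjoint p := by rw [hp]; exact IsSelfAdjoint.smul (by simp [IsSelfAdjoint]) hws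
  have scalar : ∀ b : A, IsSelfAdjoint b → ∃ r : ℂ, ∀ x ∈ M, π p (π b x) = r • x := by
    intro b hb
    have hss : IsSelfAdjoint (p * b * p) := by
      have := hb.conjugate p
      rwa [hps.star_eq] at this
    have hsa : ∀ x, π (p * b * p) x = π p (π b (π p x)) := fun x => by simp
    obtain ⟨r, e, heM, he0, her⟩ := eig _ hss (by rintro _ ⟨x, rfl⟩; exact (hsa x) ▸ hpe _)
    have h0 : p * b * p - (r : ℂ) • p = 0 := by
      refine hmin _ (hss.sub (IsSelfAdjoint.smul (by simp [IsSelfAdjoint]) hps)) ?_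
      refine proper _ ?_ (p * b * p - (r : ℂ) • p) 0 e heM he0
        (by simp only [map_sub, map_smul, sub_apply, smul_apply, her, hpid e heM, sub_self])
        (fun x _ => ?_) (fun x => ⟨π p x, hpe x, ?_⟩)
      · rintro _ ⟨x, rfl⟩
        show π (p * b * p - (r : ℂ) • p) x ∈ M
        rw [map_sub, map_smul, sub_apply, smul_apply, hsa]
        exact M.sub_mem (hpe _) (M.smul_mem _ (hpe _))
      · rw [map_sub, map_smul, sub_apply, smul_apply, hsa]
        exact M.sub_mem (hpe _) (M.smul_mem _ (hpe _))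
      · show π (p * b * p - (r : ℂ) • p) (π p x) = π (p * b * p - (r : ℂ) • p) x
        simp only [map_sub, map_smul, sub_apply, smul_apply, hsa, hpid _ (hpe x)]
    refine ⟨r, fun x hx => ?_⟩
    have := congrArg (fun s => π s x) (sub_eq_zero.1 h0)
    simp only [map_smul, smul_apply, hsa, hpid x hx] at this
    exact this
  have hall' : ∀ b : A, ∃ r : ℂ, ∀ x ∈ M, π p (π b x) = r • x := fun b => by
    obtain ⟨r₁, h₁⟩ := scalar _ (realPart b).2
    obtain ⟨r₂, h₂⟩ := scalar _ (imaginaryPart b).2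
    refine ⟨r₁ + Complex.I * r₂, fun x hx => ?_⟩
    conv_lhs => rw [← realPart_add_I_smul_imaginaryPart b]
    rw [map_add, map_smul, add_apply, smul_apply, map_add, map_smul, h₁ x hx, h₂ x hx, add_smul,
      smul_smul]
  set ξ := (‖v‖ : ℂ)⁻¹ • v with hξdef
  have hξn : ‖ξ‖ = 1 := norm_smul_inv_norm hv0
  have hξM : ξ ∈ M := M.smul_mem _ hvM
  have hone : ∀ x ∈ M, x = ⟪ξ, x⟫_ℂ • ξ := fun x hx => by
    rw [← sub_eq_zero]
    set y := x - ⟪ξ, x⟫_ℂ • ξ with hy
    have hyM : y ∈ M := M.sub_mem hx (M.smul_mem _ hξM)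
    have hyξ : ⟪y, ξ⟫_ℂ = 0 := by
      rw [hy, inner_sub_left, inner_smul_left, inner_self_eq_norm_sq_to_K, hξn]
      simp
    refine inner_self_eq_zero (𝕜 := ℂ).1 ?_
    by_contra hne
    obtain ⟨b, hb⟩ := dense_orbit hπ (fun h : ξ = 0 => by rw [h, norm_zero] at hξn; exact zero_ne_one hξn) y
      (ε := ‖y‖) (norm_pos_iff.2 fun h : y = 0 => hne (by rw [h, inner_zero_left]))
    obtain ⟨r, hr⟩ := hall' b
    have h0 : ⟪y, π b ξ⟫_ℂ = 0 := by
      conv_lhs => rw [← hpid y hyM, hsym p hps, hr ξ hξM, inner_smul_right, hyξ, mul_zero]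
    have h2 : ‖⟪y, y⟫_ℂ‖ ≤ ‖y‖ * ‖π b ξ - y‖ := by
      refine le_trans (le_of_eq ?_) (norm_inner_le_norm (𝕜 := ℂ) _ _)
      rw [inner_sub_right (𝕜 := ℂ) y (π b ξ) y, h0, zero_sub, norm_neg]
    rw [inner_self_eq_norm_sq_to_K, norm_pow] at h2
    simp at h2
    have hy0 : 0 < ‖y‖ := (norm_nonneg _).trans_lt hb
    nlinarith
  have hPz : ∀ z, π p z = ⟪ξ, z⟫_ℂ • ξ := fun z => by
    rw [hone _ (hpe z), ← hsym p hps, hpid ξ hξM]
  have hrk : ∀ u v : H, InnerProductSpace.rankOne ℂ u v ∈ Set.range π := by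
    have hd : DenseRange (fun a => π a ξ) := fun y => Metric.mem_closure_iff.2 fun ε hε => by
      obtain ⟨a, ha⟩ := dense_orbit hπ (fun h : ξ = 0 => by rw [h, norm_zero] at hξn; exact zero_ne_one hξn) y hε
      exact ⟨_, ⟨a, rfl⟩, by rwa [dist_eq_norm, norm_sub_rev]⟩
    refine fun u v => hd.induction_on u (hclosed.preimage (by fun_prop)) fun a => ?_
    refine hd.induction_on v (hclosed.preimage (by fun_prop)) fun b => ?_
    refine ⟨a * p * star b, ContinuousLinearMap.ext fun z => ?_⟩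
    simp only [map_mul, mul_apply_eq_comp, hPz, map_smul, InnerProductSpace.rankOne_apply]
    rw [← inner_map_star' π b ξ z]
  refine hclosed.closure_subset (Metric.mem_closure_iff.2 fun ε hε => ?_)
  have hC : IsCompact (closure (T '' Metric.closedBall 0 1)) :=
    IsCompactOperator.isCompact_closure_image_closedBall (f := (T : H →ₗ[ℂ] H)) hT 1
  obtain ⟨t, -, htf, hcov⟩ := finite_cover_balls_of_compact hC (half_pos hε)
  let W := Submodule.span ℂ t
  have : FiniteDimensional ℂ W := FiniteDimensional.span_of_finite ℂ htf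
  refine ⟨W.starProjection ∘L T, ?_, ?_⟩
  · let L : Submodule ℂ (H →L[ℂ] H) :=
      { carrier := Set.range π
        add_mem' := by rintro _ _ ⟨x, rfl⟩ ⟨y, rfl⟩; exact ⟨x + y, map_add π x y⟩
        zero_mem' := ⟨0, map_zero π⟩
        smul_mem' := by rintro c _ ⟨x, rfl⟩; exact ⟨c • x, map_smul π c x⟩ }
    show W.starProjection ∘L T ∈ L
    rw [OrthonormalBasis.starProjection_eq_sum_rankOne (stdOrthonormalBasis ℂ W),
      ContinuousLinearMap.finsetSum_comp]
    refine L.sum_mem fun i _ => ?_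
    have : (InnerProductSpace.rankOne ℂ ((stdOrthonormalBasis ℂ W i : W) : H)
        ((stdOrthonormalBasis ℂ W i : W) : H)) ∘L T =
        InnerProductSpace.rankOne ℂ ((stdOrthonormalBasis ℂ W i : W) : H)
          (star T ((stdOrthonormalBasis ℂ W i : W) : H)) := by
      ext z
      simp [ContinuousLinearMap.star_eq_adjoint, ContinuousLinearMap.adjoint_inner_left]
    rw [this]
    exact hrk _ _
  · rw [dist_eq_norm]
    refine lt_of_le_of_lt (ContinuousLinearMap.opNorm_le_of_unit_norm (half_pos hε).le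
      fun x hx => ?_) (half_lt_self hε)
    obtain ⟨z, hz, hzx⟩ := Set.mem_iUnion₂.1 (hcov (subset_closure
      ⟨x, by simp [hx], rfl⟩))
    rw [Metric.mem_ball, dist_eq_norm] at hzx
    have hmin' := W.starProjection_minimal (T x)
    have h3 : ‖T x - W.starProjection (T x)‖ ≤ ‖T x - z‖ := by
      rw [hmin']
      exact ciInf_le ⟨0, by rintro _ ⟨w, rfl⟩; exact norm_nonneg _⟩
        (⟨z, Submodule.subset_span hz⟩ : W)
    simp only [sub_apply, ContinuousLinearMap.comp_apply]
    linarith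

/-- One nonzero compact operator in the range forces an algebra with property (N) to be
elementary. -/
theorem isElementary_of_compact (hN : HasN A) (hπ : IsIrreducibleRep π) {j₀ : A}
    (hj₀ : π j₀ ≠ 0) (hc : IsCompactOperator (π j₀)) : IsElementary A :=
  have hinj := injective_of_hasN hN hπ
  ⟨H, _, _, _, π, hinj, range_eq_compacts hπ hinj (compact_of_compact hN hπ hj₀ hc)⟩

end Vale.Agent.P070
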