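import Vale.Agent.P070.Flatten

/-!
# P070: an algebra with property (N) and a regular subalgebra with a diagonal point is elementary
-/

namespace Vale.Agent.P070

open scoped ComplexOrder InnerProductSpace
open Filter Topology

universe u

variable {A : Type u} [NonUnitalCStarAlgebra A]

namespace DiagPoint

variable (P : DiagPoint A) {H : Type u} [NormedAddCommGroup H] [InnerProductSpace ℂ H]
  [CompleteSpace H] (ρ : Unitization ℂ A →⋆ₐ[ℂ] (H →L[ℂ] H)) {ξ : H}

/-- Common eigenvector of the subalgebra. -/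
def IsEigen (η : H) (l : P.D → ℂ) : Prop :=
  ∀ d : P.D, ρ ((d : A) : Unitization ℂ A) η = l d • η

theorem inner_char (hξ : ‖ξ‖ = 1) (heig : P.IsEigen ρ ξ P.χ) (x : P.D) :
    ⟪ξ, ρ ((x : A) : Unitization ℂ A) ξ⟫_ℂ = P.χ x := by
  rw [heig x, inner_smul_right, inner_self_eq_norm_sq_to_K, hξ]
  simp

/-- The image of the vector under a normalizer is again an eigenvector. -/
theorem eigen_normalizer (hξ : ‖ξ‖ = 1) (heig : P.IsEigen ρ ξ P.χ) {n : A}
    (hn : Normalizes P.D n) :
    ∃ l : P.D → ℂ, P.IsEigen ρ (ρ (n : Unitization ℂ A) ξ) l ∧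
      ∀ d : P.D, l d * P.χ ⟨star n * n, hn.1⟩ = P.χ ⟨star n * d * n, (hn.2.2 d d.2).1⟩ := by
  set N := P.χ ⟨star n * n, hn.1⟩ with hN
  have hv : ∀ x y : A, ⟪ρ (x : Unitization ℂ A) ξ, ρ (y : Unitization ℂ A) ξ⟫_ℂ =
      ⟪ξ, ρ ((star x * y : A) : Unitization ℂ A) ξ⟫_ℂ := fun x y => by
    rw [Unitization.inr_mul, Unitization.inr_star, map_mul, mul_apply_eq_comp, map_star,
      ContinuousLinearMap.star_eq_adjoint, ContinuousLinearMap.adjoint_inner_right]
  have hvv : ⟪ρ (n : Unitization ℂ A) ξ, ρ (n : Unitization ℂ A) ξ⟫_ℂ = N := by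
    rw [hv]; exact P.inner_char ρ hξ heig ⟨star n * n, hn.1⟩
  by_cases hN0 : N = 0
  · have h0 : ρ (n : Unitization ℂ A) ξ = 0 := inner_self_eq_zero (𝕜 := ℂ).1 (hvv.trans hN0)
    refine ⟨fun _ => 0, fun d => by rw [h0]; simp, fun d => ?_⟩
    have h1 := P.inner_char ρ hξ heig ⟨star n * d * n, (hn.2.2 d d.2).1⟩
    rw [hN0, mul_zero, ← h1]
    simp only [mul_assoc, ← hv, h0, inner_zero_left]
  set Mv := P.χ ∘ (fun d : P.D => (⟨star n * d * n, (hn.2.2 d d.2).1⟩ : P.D)) with hM
  refine ⟨fun d => Mv d / N, fun d => ?_, fun d => div_mul_cancel₀ _ hN0⟩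
  set v := ρ (n : Unitization ℂ A) ξ with hvdef
  set w := ρ ((d : A) : Unitization ℂ A) v with hw
  have hwA : w = ρ (((d : A) * n : A) : Unitization ℂ A) ξ := by
    rw [Unitization.inr_mul, map_mul, mul_apply_eq_comp]
  have e1 : ⟪v, w⟫_ℂ = Mv d := by
    rw [hwA, hv, ← mul_assoc]
    exact P.inner_char ρ hξ heig ⟨star n * d * n, (hn.2.2 d d.2).1⟩
  have e3 : ⟪w, v⟫_ℂ = starRingEnd ℂ (Mv d) := by rw [← inner_conj_symm, e1]
  have e2 : ⟪w, w⟫_ℂ * N = starRingEnd ℂ (Mv d) * Mv d := by
    set X : P.D := ⟨star n * (star (d : A) * d) * n, (hn.2.2 _ (star d * d).2).1⟩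
    set Y : P.D := ⟨star n * d * n, (hn.2.2 d d.2).1⟩
    have hX : ⟪w, w⟫_ℂ = P.χ X := by
      rw [hwA, hv, star_mul]
      rw [show star n * star (d : A) * ((d : A) * n) = star n * (star (d : A) * d) * n by
        simp only [mul_assoc]]
      exact P.inner_char ρ hξ heig X
    rw [hX, ← map_mul, show starRingEnd ℂ (Mv d) = P.χ (star Y) from (map_star P.χ Y).symm,
      show Mv d = P.χ Y from rfl, ← map_mul]
    congr 1
    apply Subtype.ext
    show star n * (star (d : A) * d) * n * (star n * n) = star (star n * d * n) * (star n * d * n)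
    have hc := P.comm (n * star n) hn.2.1 (d : A) d.2
    rw [star_mul, star_mul, star_star]
    calc star n * (star (d : A) * d) * n * (star n * n)
        = star n * star (d : A) * ((d : A) * (n * star n)) * n := by simp only [mul_assoc]
      _ = star n * star (d : A) * ((n * star n) * d) * n := by rw [hc]
      _ = _ := by simp only [mul_assoc]
  show w = (Mv d / N) • v
  rw [← sub_eq_zero]
  refine inner_self_eq_zero (𝕜 := ℂ).1 ?_
  have hNr : starRingEnd ℂ N = N := by rw [← hvv, inner_conj_symm]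
  rw [inner_sub_left, inner_sub_right, inner_sub_right, inner_smul_left, inner_smul_left,
    inner_smul_right, inner_smul_right, e1, e3, hvv, map_div₀, hNr, ← sub_eq_zero]
  field_simp
  linear_combination e2

/-- The vector is the only eigenvector of the character, up to a scalar. -/
theorem eigen_char_unique (hξ : ‖ξ‖ = 1) (heig : P.IsEigen ρ ξ P.χ)
    (hirr : IsIrreducibleRep
      (ρ.toNonUnitalStarAlgHom.comp (Unitization.inrNonUnitalStarAlgHom ℂ A)))
    {η : H} (hη : P.IsEigen ρ η P.χ) : ∃ c : ℂ, η = c • ξ := by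
  refine ⟨⟪ξ, η⟫_ℂ, ?_⟩
  rw [← sub_eq_zero]
  by_contra hne
  set z := η - ⟪ξ, η⟫_ℂ • ξ with hz
  have hzξ : ⟪ξ, z⟫_ℂ = 0 := by
    rw [hz, inner_sub_right, inner_smul_right, inner_self_eq_norm_sq_to_K, hξ]
    simp
  set η' := (‖z‖ : ℂ)⁻¹ • z with hη'
  have hn' : ‖η'‖ = 1 := norm_smul_inv_norm hne
  have hξη : ⟪ξ, η'⟫_ℂ = 0 := by rw [hη', inner_smul_right, hzξ, mul_zero]
  have heig' : P.IsEigen ρ η' P.χ := fun d => by
    rw [hη', hz, map_smul, map_sub, map_smul, hη d, heig d]
    module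
  obtain ⟨φ, hφ, hφe⟩ := exists_vector_state ρ hξ
  have hφd : ∀ d : P.D, φ ((d : A) : Unitization ℂ A) = P.χ d := fun d => by
    rw [hφe]; exact P.inner_char ρ hξ heig d
  -- every unit eigenvector gives the same functional on `A`
  have same : ∀ (w : H), P.IsEigen ρ w P.χ → ∀ a : A, ⟪w, ρ (a : Unitization ℂ A) w⟫_ℂ =
      ((‖w‖ ^ 2 : ℝ) : ℂ) * ⟪ξ, ρ (a : Unitization ℂ A) ξ⟫_ℂ := by
    intro w hw a
    by_cases hw0 : w = 0
    · simp [hw0]
    set w' := (‖w‖ : ℂ)⁻¹ • w with hw'
    have hwn : ‖w'‖ = 1 := norm_smul_inv_norm hw0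
    obtain ⟨ψ, hψ, hψe⟩ := exists_vector_state ρ hwn
    have hw'e : P.IsEigen ρ w' P.χ := fun d => by
      rw [hw', map_smul, hw d, smul_comm]
    have h := P.eq_of_extends hψ hφ (fun d => by rw [hψe]; exact P.inner_char ρ hwn hw'e d) hφd a
    rw [hψe, hφe, hw', map_smul, inner_smul_left, inner_smul_right, map_inv₀] at h
    simp only [Complex.conj_ofReal, RCLike.conj_ofReal] at h
    have hw2 : (‖w‖ : ℂ) ≠ 0 := by simp [hw0]
    rw [← h]
    push_cast
    field_simp
  have hlin : ∀ c : ℂ, P.IsEigen ρ (ξ + c • η') P.χ := fun c d => by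
    rw [map_add, map_smul, heig d, heig' d, smul_add, smul_comm]
  have hnorm : ∀ c : ℂ, ‖c‖ = 1 → ‖ξ + c • η'‖ ^ 2 = 2 := fun c hc => by
    have h := norm_add_sq_eq_norm_sq_add_norm_sq_of_inner_eq_zero (𝕜 := ℂ) ξ (c • η')
      (by rw [inner_smul_right, hξη, mul_zero])
    rw [pow_two, h, norm_smul, hc, hn', hξ]
    norm_num
  have hoff : ∀ a : A, ⟪η', ρ (a : Unitization ℂ A) ξ⟫_ℂ = 0 := fun a => by
    have h1 := same _ (hlin 1) a
    have h2 := same _ (hlin Complex.I) a
    have h3 := same _ heig' a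
    rw [hnorm 1 (by simp)] at h1
    rw [hnorm Complex.I (by simp)] at h2
    simp only [map_add, map_smul, inner_add_left, inner_add_right, inner_smul_left,
      inner_smul_right, hn', Complex.conj_I, map_one, one_smul, one_mul] at h1 h2 h3
    push_cast at h1 h2 h3
    have hI := Complex.I_sq
    linear_combination (1 / 2 : ℂ) * h1 + (Complex.I / 2) * h2 - ((1 + Complex.I) / 2) * h3 +
      (⟪η', ρ (a : Unitization ℂ A) ξ⟫_ℂ / 2 - ⟪ξ, ρ (a : Unitization ℂ A) η'⟫_ℂ / 2 +
        Complex.I * ⟪η', ρ (a : Unitization ℂ A) η'⟫_ℂ / 2) * hI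
  obtain ⟨a, ha⟩ := dense_orbit hirr
    (fun h : ξ = 0 => by rw [h, norm_zero] at hξ; exact zero_ne_one hξ) η' one_pos
  have h1 : ‖⟪η', η'⟫_ℂ‖ ≤ ‖η'‖ * ‖ρ (a : Unitization ℂ A) ξ - η'‖ := by
    refine le_trans (le_of_eq ?_) (norm_inner_le_norm (𝕜 := ℂ) _ _)
    rw [inner_sub_right (𝕜 := ℂ) η' (ρ (a : Unitization ℂ A) ξ) η', hoff, zero_sub, norm_neg]
  rw [inner_self_eq_norm_sq_to_K, norm_pow] at h1
  simp [hn'] at h1
  exact absurd ha (not_lt.2 h1)

/-- Normalized images of the vector with the same character differ by a scalar. -/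
theorem proportional (hξ : ‖ξ‖ = 1) (heig : P.IsEigen ρ ξ P.χ)
    (hirr : IsIrreducibleRep
      (ρ.toNonUnitalStarAlgHom.comp (Unitization.inrNonUnitalStarAlgHom ℂ A)))
    {n m : A} (hm : Normalizes P.D m) (hm0 : ρ (m : Unitization ℂ A) ξ ≠ 0) {l : P.D → ℂ}
    (hnl : P.IsEigen ρ (ρ (n : Unitization ℂ A) ξ) l)
    (hml : P.IsEigen ρ (ρ (m : Unitization ℂ A) ξ) l) :
    ∃ c : ℂ, ρ (n : Unitization ℂ A) ξ = c • ρ (m : Unitization ℂ A) ξ := by
  set v := ρ (n : Unitization ℂ A) ξ
  set u := ρ (m : Unitization ℂ A) ξ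
  set M := P.χ ⟨star m * m, hm.1⟩ with hM
  obtain ⟨l', hl', hl'e⟩ := P.eigen_normalizer ρ hξ heig hm
  have hll : ∀ d, l' d = l d := fun d => smul_left_injective ℂ hm0 ((hl' d).symm.trans (hml d))
  have hM0 : M ≠ 0 := fun h0 => hm0 (inner_self_eq_zero (𝕜 := ℂ).1 (by
    have := P.inner_char ρ hξ heig ⟨star m * m, hm.1⟩
    show ⟪ρ (m : Unitization ℂ A) ξ, ρ (m : Unitization ℂ A) ξ⟫_ℂ = 0
    rw [← h0, hM, ← this]
    show _ = ⟪ξ, ρ ((star m * m : A) : Unitization ℂ A) ξ⟫_ℂ
    rw [Unitization.inr_mul, Unitization.inr_star, map_mul, mul_apply_eq_comp, map_star,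
      ContinuousLinearMap.star_eq_adjoint, ContinuousLinearMap.adjoint_inner_right]))
  let mm : P.D := ⟨m * star m, hm.2.1⟩
  have hcM : l mm = M := by
    refine mul_right_cancel₀ hM0 ?_
    rw [← hll, hl'e, hM, ← map_mul]
    congr 1
    exact Subtype.ext (by simp [mm, mul_assoc])
  set z := ρ ((star m : A) : Unitization ℂ A) v with hz
  have hzeig : P.IsEigen ρ z P.χ := fun d => by
    let md : P.D := ⟨m * d * star m, (hm.2.2 d d.2).2⟩
    have hlmd : l md = M * P.χ d := by
      refine mul_right_cancel₀ hM0 ?_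
      rw [← hll, hl'e, hM, ← map_mul, ← map_mul]
      congr 1
      apply Subtype.ext
      show star m * (m * d * star m) * m = star m * m * d * (star m * m)
      simp only [mul_assoc]
    refine smul_right_injective H hM0 ?_
    show M • ρ ((d : A) : Unitization ℂ A) z = M • P.χ d • z
    have e1 : star m * (m * d * star m) = (d : A) * (star m * (m * star m)) := by
      calc star m * (m * d * star m) = (star m * m * d) * star m := by simp only [mul_assoc]
        _ = ((d : A) * (star m * m)) * star m := by rw [P.comm _ hm.1 _ d.2]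
        _ = _ := by simp only [mul_assoc]
    have e2 : M • ρ ((d : A) : Unitization ℂ A) z =
        ρ ((d : A) : Unitization ℂ A) (ρ ((star m : A) : Unitization ℂ A) (ρ ((mm : A) : Unitization ℂ A) v)) := by
      rw [hnl mm, hcM, map_smul, map_smul]
    rw [e2, ← mul_apply_eq_comp, ← map_mul, ← mul_apply_eq_comp, ← map_mul,
      ← Unitization.inr_mul, ← Unitization.inr_mul,
      show (d : A) * star m * (mm : A) = star m * (md : A) by
        show (d : A) * star m * (m * star m) = star m * (m * d * star m)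
        rw [e1]; simp only [mul_assoc],
      Unitization.inr_mul, map_mul, mul_apply_eq_comp, hnl md, map_smul, hlmd, ← hz, smul_smul]
  obtain ⟨s, hs⟩ := P.eigen_char_unique ρ hξ heig hirr hzeig
  refine ⟨M⁻¹ * s, ?_⟩
  have e : M • v = s • u := by
    rw [← hcM, ← hnl mm]
    show ρ ((m * star m : A) : Unitization ℂ A) v = s • u
    rw [Unitization.inr_mul, map_mul, mul_apply_eq_comp, ← hz, hs, map_smul]
  rw [← smul_smul, ← e, inv_smul_smul₀ hM0]

end DiagPoint

/-- The flattening obstruction for a diagonal point. -/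
theorem DiagPoint.isElementary (P : DiagPoint A) (hN : HasN A) : IsElementary A := by
  classical
  obtain ⟨H, i1, i2, i3, ρ, ξ, hξ, hirr, heig, hexc⟩ := P.exists_rep
  set π := ρ.toNonUnitalStarAlgHom.comp (Unitization.inrNonUnitalStarAlgHom ℂ A) with hπ
  by_cases hc : ∃ j, π j ≠ 0 ∧ IsCompactOperator (π j)
  · obtain ⟨j, hj, hjc⟩ := hc
    exact isElementary_of_compact hN hirr hj hjc
  exfalso
  push Not at hc
  have hnc : ∀ a, IsCompactOperator (π a) → π a = 0 := fun a ha => by
    by_contra h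
    exact hc a h ha
  have hinj := injective_of_hasN hN hirr
  have hπρ : ∀ a : A, π a = ρ (a : Unitization ℂ A) := fun a => rfl
  -- the characters of the images of the vector
  let ι := {l : P.D → ℂ // ∃ n, Normalizes P.D n ∧ ρ (n : Unitization ℂ A) ξ ≠ 0 ∧
    P.IsEigen ρ (ρ (n : Unitization ℂ A) ξ) l}
  choose n hn hn0 hne using fun i : ι => i.2
  obtain ⟨v, hvdef⟩ : ∃ v : ι → H, ∀ i,
      v i = ((‖ρ (n i : Unitization ℂ A) ξ‖ : ℂ))⁻¹ • ρ (n i : Unitization ℂ A) ξ :=
    ⟨fun i => ((‖ρ (n i : Unitization ℂ A) ξ‖ : ℂ))⁻¹ • ρ (n i : Unitization ℂ A) ξ, fun _ => rfl⟩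
  have hv1 : ∀ i, ‖v i‖ = 1 := fun i => by rw [hvdef]; exact norm_smul_inv_norm (hn0 i)
  have hvne : ∀ i, v i ≠ 0 := fun i h => by
    have := hv1 i
    rw [h, norm_zero] at this
    exact zero_ne_one this
  have hve : ∀ i, P.IsEigen ρ (v i) i.1 := fun i d => by
    simp only [hvdef, map_smul, hne i d]
    rw [smul_comm]
  have happ : ∀ (i : ι) (d : P.D), π (d : A) (v i) = i.1 d • v i := hve
  have ladd : ∀ (i : ι) (x y : P.D), i.1 (x + y) = i.1 x + i.1 y := fun i x y =>
    smul_left_injective ℂ (hvne i) (by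
      show i.1 (x + y) • v i = (i.1 x + i.1 y) • v i
      rw [add_smul, ← happ, ← happ, ← happ]; simp)
  have lsmul : ∀ (i : ι) (c : ℂ) (x : P.D), i.1 (c • x) = c * i.1 x := fun i c x =>
    smul_left_injective ℂ (hvne i) (by
      show i.1 (c • x) • v i = (c * i.1 x) • v i
      rw [← smul_smul, ← happ, ← happ, SetLike.val_smul, map_smul]
      rfl)
  have lmul : ∀ (i : ι) (x y : P.D), i.1 (x * y) = i.1 x * i.1 y := fun i x y =>
    smul_left_injective ℂ (hvne i) (by
      show i.1 (x * y) • v i = (i.1 x * i.1 y) • v i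
      rw [mul_comm, ← happ, ← smul_smul, ← happ, MulMemClass.coe_mul, map_mul, mul_apply_eq_comp,
        happ i y, map_smul])
  have lstar : ∀ (i : ι) (x : P.D), i.1 (star x) = starRingEnd ℂ (i.1 x) := fun i x => by
    have h := inner_map_star π (x : A) (v i) (v i)
    rw [← StarMemClass.coe_star, happ, happ, inner_smul_left, inner_smul_right] at h
    have h' := congrArg (starRingEnd ℂ) (mul_right_cancel₀ (inner_self_ne_zero.2 (hvne i)) h)
    rwa [Complex.conj_conj] at h'
  have hon : Orthonormal ℂ v := ⟨hv1, fun i j hij => by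
    obtain ⟨d, hd⟩ : ∃ d, i.1 d ≠ j.1 d := by
      by_contra h
      push Not at h
      exact hij (Subtype.ext (funext h))
    have h := inner_map_star π (d : A) (v i) (v j)
    rw [← StarMemClass.coe_star, happ, happ, inner_smul_left, inner_smul_right, lstar,
      Complex.conj_conj] at h
    rcases eq_or_ne ⟪v i, v j⟫_ℂ 0 with h0 | h0
    · exact h0
    · exact absurd (mul_right_cancel₀ h0 h) hd⟩
  have hd : (Submodule.span ℂ (Set.range v)).topologicalClosure = ⊤ := by
    set W := (Submodule.span ℂ (Set.range v)).topologicalClosure with hW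
    have hWc : IsClosed (W : Set H) := Submodule.isClosed_topologicalClosure _
    have hnW : ∀ m, Normalizes P.D m → ρ (m : Unitization ℂ A) ξ ∈ W := fun m hm => by
      by_cases h0 : ρ (m : Unitization ℂ A) ξ = 0
      · rw [h0]; exact W.zero_mem
      obtain ⟨l, hl, -⟩ := P.eigen_normalizer ρ hξ heig hm
      let i : ι := ⟨l, m, hm, h0, hl⟩
      obtain ⟨c, hc'⟩ := P.proportional ρ hξ heig hirr (hn i) (hn0 i) hl (hne i)
      have : ρ (m : Unitization ℂ A) ξ = (c * (‖ρ (n i : Unitization ℂ A) ξ‖ : ℂ)) • v i := by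
        rw [hc']
        simp only [hvdef, smul_smul]
        rw [mul_assoc, mul_inv_cancel₀ (by simp [hn0 i]), mul_one]
      rw [this]
      exact W.smul_mem _ (Submodule.le_topologicalClosure _ (Submodule.subset_span ⟨i, rfl⟩))
    let L : A →ₗ[ℂ] H :=
      { toFun := fun a => π a ξ, map_add' := fun a b => by simp, map_smul' := fun c a => by simp }
    have hLc : Continuous L := AddMonoidHomClass.continuous_of_bound L ‖ξ‖ fun a => by
      rw [mul_comm]; exact norm_map_apply_le π a ξ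
    have hall : ∀ a, π a ξ ∈ W := by
      intro a
      have hcl : IsClosed {b | L b ∈ W} := hWc.preimage hLc
      have hsub : (Submodule.span ℂ {m | Normalizes P.D m}) ≤ W.comap L :=
        Submodule.span_le.2 fun m hm => hnW m hm
      have ha : a ∈ (Submodule.span ℂ {m | Normalizes P.D m}).topologicalClosure := by
        rw [P.regular]; exact Submodule.mem_top
      exact closure_minimal hsub hcl ha
    rw [eq_top_iff]
    intro y _
    refine hWc.closure_subset (Metric.mem_closure_iff.2 fun ε hε => ?_)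
    obtain ⟨a, ha⟩ := dense_orbit hirr
      (fun h : ξ = 0 => by rw [h, norm_zero] at hξ; exact zero_ne_one hξ) y hε
    exact ⟨π a ξ, hall a, by rwa [dist_eq_norm, norm_sub_rev]⟩
  have hsep : Separates π v := fun S => by
    have hp : ∀ (i : ι) (T : Finset ι), ∃ p : P.D, i.1 p ≠ 0 ∧
        ∀ j ∈ T, j ≠ i → j.1 p = 0 := by
      intro i T
      induction T using Finset.induction with
      | empty =>
        refine ⟨⟨n i * star (n i), (hn i).2.1⟩, fun h => hn0 i ?_, fun j hj => absurd hj (by simp)⟩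
        have h1 := hne i ⟨n i * star (n i), (hn i).2.1⟩
        rw [h, zero_smul, ← mul_apply_eq_comp, ← map_mul, ← Unitization.inr_mul, mul_assoc] at h1
        have h2 : π (n i) (π (star (n i) * n i) ξ) = 0 := by
          rw [← mul_apply_eq_comp, ← map_mul]; exact h1
        rw [hπρ (star (n i) * n i), heig ⟨_, (hn i).1⟩, map_smul, smul_eq_zero] at h2
        refine h2.elim (fun h3 => ?_) fun h3 => h3
        rw [← P.inner_char ρ hξ heig ⟨_, (hn i).1⟩] at h3
        refine inner_self_eq_zero (𝕜 := ℂ).1 ?_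
        rw [← h3]
        show _ = ⟪ξ, ρ ((star (n i) * n i : A) : Unitization ℂ A) ξ⟫_ℂ
        rw [Unitization.inr_mul, Unitization.inr_star, map_mul, mul_apply_eq_comp, map_star,
          ContinuousLinearMap.star_eq_adjoint, ContinuousLinearMap.adjoint_inner_right]
      | insert j T _ ih =>
        obtain ⟨p, hpi, hp⟩ := ih
        by_cases hji : j = i
        · exact ⟨p, hpi, fun k hk hki => hp k ((Finset.mem_insert.1 hk).resolve_left
            (fun h => hki (h.trans hji))) hki⟩
        obtain ⟨d, hd'⟩ : ∃ d, i.1 d ≠ j.1 d := by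
          by_contra h
          push Not at h
          exact hji (Subtype.ext (funext fun d => (h d).symm))
        have hq : ∀ k : ι, k.1 (p * d + (-(j.1 d)) • p) = k.1 p * (k.1 d - j.1 d) := fun k => by
          rw [ladd, lmul, lsmul]; ring
        refine ⟨p * d + (-(j.1 d)) • p, ?_, fun k hk hki => ?_⟩
        · rw [hq]; exact mul_ne_zero hpi (sub_ne_zero.2 hd')
        · rw [hq]
          rcases Finset.mem_insert.1 hk with rfl | h
          · rw [sub_self, mul_zero]
          · rw [hp k h hki, zero_mul]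
    choose p hp0 hpz using hp
    have hsum : ∀ (k : ι) (T : Finset S) (F : S → P.D),
        k.1 (∑ i ∈ T, F i) = ∑ i ∈ T, k.1 (F i) := fun k T F =>
      map_sum (AddMonoidHom.mk' k.1 (ladd k)) F T
    let num : S → ℝ := fun i => ((S.equivFin i : ℕ) : ℝ) + 1
    let K : S → ℂ := fun i => ((num i / Complex.normSq (i.1.1 (p i.1 S)) : ℝ) : ℂ)
    let g : P.D := ∑ i : S, K i • (star (p i.1 S) * p i.1 S)
    let r : ι → ℝ := fun k =>
      ∑ i : S, num i / Complex.normSq (i.1.1 (p i.1 S)) * Complex.normSq (k.1 (p i.1 S))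
    have hgk : ∀ k : ι, k.1 g = (r k : ℂ) := fun k => by
      simp only [g, r, hsum, lsmul, lmul, lstar, Complex.ofReal_sum]
      refine Finset.sum_congr rfl fun i _ => ?_
      rw [← Complex.normSq_eq_conj_mul_self, Complex.ofReal_mul]
    have hrS : ∀ i : S, r i.1 = num i := fun i => by
      simp only [r]
      rw [Finset.sum_eq_single i (fun j _ hji => ?_) (fun h => absurd (Finset.mem_univ i) h)]
      · exact div_mul_cancel₀ _ (Complex.normSq_pos.2 (hp0 i.1 S)).ne'
      · rw [hpz j.1 S i.1 i.2 (fun h => hji (Subtype.ext h.symm)), Complex.normSq_zero, mul_zero]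
    refine ⟨(g : A), r, ?_, fun k => by rw [happ, hgk], fun i hi => ?_, fun i hi j hj hij => ?_⟩
    · have : IsSelfAdjoint g := isSelfAdjoint_sum _ fun i _ =>
        IsSelfAdjoint.smul (Complex.conj_ofReal _) (IsSelfAdjoint.star_mul_self _)
      show star (g : A) = g
      rw [← StarMemClass.coe_star, this.star_eq]
    · rw [hrS ⟨i, hi⟩]
      simp [num]
    · rw [hrS ⟨i, hi⟩, hrS ⟨j, hj⟩]
      have hne' : (S.equivFin ⟨i, hi⟩ : ℕ) ≠ S.equivFin ⟨j, hj⟩ := fun h =>
        hij (congrArg Subtype.val (S.equivFin.injective (Fin.ext h)))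
      simp only [num, add_sub_add_right_eq_sub]
      rw [le_abs]
      rcases Nat.lt_or_gt_of_ne hne' with h | h
      · have h' := (Nat.cast_le (α := ℝ)).2 (Nat.succ_le_of_lt h)
        push_cast at h'
        exact Or.inr (by linarith)
      · have h' := (Nat.cast_le (α := ℝ)).2 (Nat.succ_le_of_lt h)
        push_cast at h'
        exact Or.inl (by linarith)
  exact no_diagonal ρ hN hirr hnc hon hd hsep hξ hexc hinj

end Vale.Agent.P070
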