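import Vale.Agent.P070.Basic

/-!
# P070: two orthogonal asymptotically central multipliers cannot both survive
-/

namespace Vale.Agent.P070

open scoped ComplexOrder InnerProductSpace
open Filter Topology

universe u

variable {A : Type u} [NonUnitalCStarAlgebra A]

/-- Left multiplication by an element of the unitization. -/
noncomputable def left (v : Unitization ℂ A) : A →L[ℂ] A :=
  v.fst • ContinuousLinearMap.id ℂ A + ContinuousLinearMap.mul ℂ A v.snd

theorem inr_left (v : Unitization ℂ A) (a : A) :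
    ((left v a : A) : Unitization ℂ A) = v * (a : Unitization ℂ A) := by
  conv_rhs => rw [← Unitization.inl_fst_add_inr_snd_eq v, add_mul, Unitization.inl_mul_inr,
    ← Unitization.inr_mul, ← Unitization.inr_add]
  simp [left]

theorem left_mul (v : Unitization ℂ A) (a b : A) : left v (a * b) = left v a * b :=
  Unitization.inr_injective (R := ℂ) (by
    rw [inr_left, Unitization.inr_mul, Unitization.inr_mul, inr_left, mul_assoc])

theorem exists_norming_state {B : Type u} [CStarAlgebra B] {x : B} (hx : x ≠ 0) :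
    ∃ φ ∈ states B, φ (star x * x) = ((‖star x * x‖ : ℝ) : ℂ) := by
  let := CStarAlgebra.spectralOrder B
  have := CStarAlgebra.spectralOrderedRing B
  have : Nontrivial B := ⟨⟨x, 0, hx⟩⟩
  set h := star x * x with hh
  have hM : 0 < ‖h‖ := by
    rw [hh, CStarRing.norm_star_mul_self]
    exact mul_pos (norm_pos_iff.2 hx) (norm_pos_iff.2 hx)
  obtain ⟨g, hg, hgh⟩ := exists_dual_vector'' ℂ h
  have hb : ∀ a, ‖g a‖ ≤ ‖a‖ := fun a =>
    (g.le_opNorm a).trans (by nlinarith [norm_nonneg a])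
  have hn : 0 ≤ h := star_mul_self_nonneg x
  have e : cfc (fun t : ℝ => (2 / ‖h‖) * t - 1) h = ((2 / ‖h‖ : ℝ) : ℂ) • h - 1 := by
    rw [cfc_sub .., cfc_const_mul .., cfc_id' ℝ h, cfc_const_one .., Complex.coe_smul]
  have hle : ‖((2 / ‖h‖ : ℝ) : ℂ) • h - 1‖ ≤ 1 := by
    rw [← e]
    refine norm_cfc_le zero_le_one fun t ht => ?_
    have x0 := spectrum_nonneg_of_nonneg hn ht
    have x1 : t ≤ ‖h‖ := (Real.le_norm_self t).trans (spectrum.norm_le_norm_of_mem ht)
    have e2 : 2 / ‖h‖ * t = 2 * (t / ‖h‖) := by ring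
    have : t / ‖h‖ ≤ 1 := (div_le_one hM).2 x1
    have : 0 ≤ t / ‖h‖ := by positivity
    rw [Real.norm_eq_abs, abs_le]
    constructor <;> linarith
  refine ⟨g, ⟨hb, ?_⟩, hgh⟩
  have h2 := (Complex.re_le_norm _).trans ((hb _).trans hle)
  rw [map_sub, map_smul, hgh] at h2
  simp [hM.ne'] at h2
  have h3 := (hb 1).trans (le_of_eq norm_one)
  have e1 : (g 1).re = 1 := le_antisymm ((Complex.re_le_norm _).trans h3) (by linarith)
  have e2 : (g 1).im = 0 := by
    have := Complex.normSq_eq_norm_sq (g 1)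
    rw [Complex.normSq_apply, e1] at this
    nlinarith [mul_self_nonneg (g 1).im, norm_nonneg (g 1)]
  exact Complex.ext e1 e2

theorem inner_star_mul {B : Type u} [CStarAlgebra B] {H : Type*} [NormedAddCommGroup H]
    [InnerProductSpace ℂ H] [CompleteSpace H] (π : B →⋆ₐ[ℂ] (H →L[ℂ] H)) (x : B) (ξ : H) :
    ⟪ξ, π (star x * x) ξ⟫_ℂ = ((‖π x ξ‖ ^ 2 : ℝ) : ℂ) := by
  rw [map_mul, mul_apply_eq_comp, map_star, ContinuousLinearMap.star_eq_adjoint,
    ContinuousLinearMap.adjoint_inner_right, inner_self_eq_norm_sq_to_K]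
  push_cast; rfl

/-- An extremal state not vanishing on `A` gives an irreducible representation of `A`. -/
theorem rep_of_extreme {φ : WeakDual ℂ (Unitization ℂ A)}
    (hφ : φ ∈ Set.extremePoints ℝ (states (Unitization ℂ A))) {b : A}
    (hb : φ (star (b : Unitization ℂ A) * (b : Unitization ℂ A)) ≠ 0) :
    ∃ (H : Type u) (_ : NormedAddCommGroup H) (_ : InnerProductSpace ℂ H) (_ : CompleteSpace H)
      (π : Unitization ℂ A →⋆ₐ[ℂ] (H →L[ℂ] H)) (ξ : H), DenseRange (fun y => π y ξ) ∧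
      (∀ y, φ y = ⟪ξ, π y ξ⟫_ℂ) ∧ π (b : Unitization ℂ A) ξ ≠ 0 ∧
      IsIrreducibleRep (π.toNonUnitalStarAlgHom.comp (Unitization.inrNonUnitalStarAlgHom ℂ A)) := by
  obtain ⟨H, i1, i2, i3, π, ξ, hξ, hd, hinner⟩ := exists_cyclic hφ.1
  have hne : π (b : Unitization ℂ A) ξ ≠ 0 := fun h0 => hb (by
    rw [hinner, inner_star_mul, h0]; simp)
  refine ⟨H, i1, i2, i3, π, ξ, hd, hinner, hne, ⟨b, fun h0 => hne ?_⟩, fun K hK hinv => ?_⟩
  · have := congrArg (fun T : H →L[ℂ] H => T ξ) h0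
    simpa using this
  · refine extreme_irreducible hφ π hξ hd hinner K hK fun y x hx => ?_
    rw [← Unitization.inl_fst_add_inr_snd_eq y, map_add, add_apply]
    refine K.add_mem ?_ (hinv y.snd x hx)
    rw [← Unitization.algebraMap_eq_inl, AlgHomClass.commutes, Algebra.algebraMap_eq_smul_one]
    exact K.smul_mem _ hx

/-- Irreducible representations separate points. -/
theorem exists_irr {a : A} (ha : a ≠ 0) :
    ∃ (H : Type u) (_ : NormedAddCommGroup H) (_ : InnerProductSpace ℂ H) (_ : CompleteSpace H)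
      (π : A →⋆ₙₐ[ℂ] (H →L[ℂ] H)), IsIrreducibleRep π ∧ π a ≠ 0 := by
  set x : Unitization ℂ A := (a : Unitization ℂ A)
  have hx : x ≠ 0 := fun h => ha (Unitization.inr_injective (R := ℂ) (h.trans (Unitization.inr_zero ℂ).symm))
  set M := ‖star x * x‖
  have hM : 0 < M := by
    show 0 < ‖star x * x‖
    rw [CStarRing.norm_star_mul_self]
    exact mul_pos (norm_pos_iff.2 hx) (norm_pos_iff.2 hx)
  have hMc : (M : ℂ) ≠ 0 := by exact_mod_cast hM.ne'
  obtain ⟨φ₀, h₀, h₀e⟩ := exists_norming_state hx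
  obtain ⟨φ, hφ, hφe⟩ := exists_extreme (fun _ : Unit => (M : ℂ)⁻¹ • (star x * x))
    (fun _ => by
      rw [norm_smul, norm_inv, Complex.norm_real, Real.norm_of_nonneg hM.le]
      exact (inv_mul_cancel₀ hM.ne').le)
    (fun _ => ⟨φ₀, h₀, fun _ _ => by
      rw [map_smul, h₀e, smul_eq_mul]; exact inv_mul_cancel₀ hMc⟩)
  have hb : φ (star x * x) ≠ 0 := fun h => by
    have := hφe ()
    rw [map_smul, h, smul_zero] at this
    exact zero_ne_one this
  obtain ⟨H, i1, i2, i3, π, ξ, -, -, hne, hirr⟩ := rep_of_extreme hφ hb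
  refine ⟨H, i1, i2, i3, _, hirr, fun h0 => hne ?_⟩
  have := congrArg (fun T : H →L[ℂ] H => T ξ) h0
  simpa using this

theorem ultra_pos {ι : Type*} (ω : Ultrafilter ι) {f : ι → ℝ} (hf : ∀ i, 0 ≤ f i)
    (h : ¬ Tendsto f (ω : Filter ι) (𝓝 0)) : ∃ δ > 0, ∀ᶠ i in (ω : Filter ι), δ ≤ f i := by
  rw [Metric.tendsto_nhds] at h
  push Not at h
  obtain ⟨δ, hδ, h⟩ := h
  refine ⟨δ, hδ, ?_⟩
  rcases ω.em (fun i => δ ≤ f i) with h' | h'
  · exact h'
  · refine absurd (Filter.Eventually.and h h').exists ?_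
    rintro ⟨i, h1, h2⟩
    rw [Real.dist_0_eq_abs, abs_of_nonneg (hf i)] at h1
    exact h2 h1

/-- A state norming `v * B` almost vanishes where `v` almost does. -/
theorem exists_state_bound {B v : Unitization ℂ A} (hvs : IsSelfAdjoint v) (hv : ‖v‖ ≤ 1)
    {δ : ℝ} (hδ : 0 < δ) (hn : δ ≤ ‖v * B‖) :
    ∃ φ ∈ states (Unitization ℂ A), δ ^ 2 ≤ (φ (star B * B)).re ∧
      ∀ j : A, ‖φ (star (j : Unitization ℂ A) * j)‖ ≤
        (‖(j : Unitization ℂ A) * star B * v‖ / δ) ^ 2 := by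
  set x := v * B with hx
  have hxp : 0 < ‖x‖ := hδ.trans_le hn
  have hx0 : x ≠ 0 := norm_pos_iff.1 hxp
  obtain ⟨φ, hφ, hφx⟩ := exists_norming_state hx0
  refine ⟨φ, hφ, ?_⟩
  obtain ⟨H, _, _, _, π, ξ, hξ, -, hinner⟩ := exists_cyclic hφ
  have hN2 : ‖star x * x‖ = ‖x‖ * ‖x‖ := CStarRing.norm_star_mul_self
  have nx : ∀ y : Unitization ℂ A, ∀ u : H, ‖π y u‖ ≤ ‖y‖ * ‖u‖ := fun y u =>
    ((π y).le_opNorm u).trans (mul_le_mul_of_nonneg_right
      (NonUnitalStarAlgHom.norm_apply_le π y) (norm_nonneg u))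
  have hxξ : ‖π x ξ‖ = ‖x‖ := by
    have h := (hinner _).symm.trans hφx
    rw [inner_star_mul, Complex.ofReal_inj, hN2, sq] at h
    exact mul_self_inj (norm_nonneg _) (norm_nonneg _) |>.1 h
  have fix : π (star x * x) ξ = ((‖x‖ * ‖x‖ : ℝ) : ℂ) • ξ := by
    have hne : ((‖x‖ * ‖x‖ : ℝ) : ℂ) ≠ 0 := by
      exact_mod_cast (mul_pos hxp hxp).ne'
    have h1 : ((‖x‖ * ‖x‖ : ℝ) : ℂ)⁻¹ • π (star x * x) ξ = ξ := by
      refine fixed_of_inner hξ ?_ ?_
      · rw [inner_smul_right, ← hinner, hφx, hN2, inv_mul_cancel₀ hne]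
      · rw [norm_smul, norm_inv, Complex.norm_real, Real.norm_of_nonneg (by positivity),
          inv_mul_le_one₀ (by positivity)]
        refine (nx _ _).trans ?_
        rw [hξ, mul_one, hN2]
    conv_rhs => rw [← h1]
    rw [smul_smul, mul_inv_cancel₀ hne, one_smul]
  refine ⟨?_, fun j => ?_⟩
  · rw [hinner, inner_star_mul, Complex.ofReal_re]
    refine pow_le_pow_left₀ hδ.le (hn.trans ?_) 2
    rw [← hxξ, hx, map_mul, mul_apply_eq_comp]
    exact (nx _ _).trans (mul_le_of_le_one_left (norm_nonneg _) (hv))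
  · rw [hinner, inner_star_mul, Complex.norm_real, Real.norm_of_nonneg (sq_nonneg _)]
    refine pow_le_pow_left₀ (norm_nonneg _) ?_ 2
    have h1 : ((‖x‖ * ‖x‖ : ℝ) : ℂ) • π (j : Unitization ℂ A) ξ =
        π ((j : Unitization ℂ A) * star B * v) (π x ξ) := by
      rw [← map_smul, ← fix, ← mul_apply_eq_comp, ← map_mul, ← mul_apply_eq_comp, ← map_mul]
      congr 2
      rw [hx, star_mul, (hvs).star_eq]
      simp only [mul_assoc]
    have h2 := nx ((j : Unitization ℂ A) * star B * v) (π x ξ)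
    rw [← h1, norm_smul, Complex.norm_real, Real.norm_of_nonneg (by positivity), hxξ] at h2
    rw [le_div_iff₀ hδ]
    have h3 : ‖π (j : Unitization ℂ A) ξ‖ * ‖x‖ ≤ ‖(j : Unitization ℂ A) * star B * v‖ :=
      le_of_mul_le_mul_left (by linarith) hxp
    exact (mul_le_mul_of_nonneg_left hn (norm_nonneg _)).trans h3

/-- A compact convex set of functionals not vanishing at `y` has such an extreme point. -/
theorem exists_extreme_ne {B : Type u} [CStarAlgebra B] {F : Set (WeakDual ℂ B)}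
    (hFc : IsCompact F) (hFx : Convex ℝ F) {φ : WeakDual ℂ B} (hφF : φ ∈ F) {y : B}
    (hy : φ y ≠ 0) : ∃ ψ ∈ Set.extremePoints ℝ F, ψ y ≠ 0 := by
  have : LocallyConvexSpace ℝ (WeakDual ℂ B) :=
    inferInstanceAs (LocallyConvexSpace ℝ (WeakBilin (topDualPairing ℂ B)))
  by_contra hall
  push Not at hall
  have hcl : IsClosed {ψ : WeakDual ℂ B | ψ y = 0} :=
    isClosed_eq (WeakDual.eval_continuous _) continuous_const
  have hcx : Convex ℝ {ψ : WeakDual ℂ B | ψ y = 0} := by
    intro φ₁ h₁ φ₂ h₂ s t _ _ _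
    show s • φ₁ _ + t • φ₂ _ = 0
    rw [show φ₁ y = 0 from h₁, show φ₂ y = 0 from h₂]
    simp
  have : @ContinuousSMul ℝ (WeakDual ℂ B) (WeakDual.instModule' ℝ).toSMul _ _ := by
    constructor
    exact (continuous_smul (M := ℂ)).comp
      ((Complex.continuous_ofReal.comp continuous_fst).prodMk continuous_snd)
  rw [← @closure_convexHull_extremePoints (WeakDual ℂ B) _ _ _ _ _ (by assumption)
    (by assumption) F hFc hFx] at hφF
  have hsub : F.extremePoints ℝ ⊆ {ψ : WeakDual ℂ B | ψ y = 0} := fun ψ hψ => hall ψ hψ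
  have h1 : convexHull ℝ (F.extremePoints ℝ) ⊆ {ψ : WeakDual ℂ B | ψ y = 0} :=
    convexHull_min hsub hcx
  have h2 : closure (convexHull ℝ (F.extremePoints ℝ)) ⊆ {ψ : WeakDual ℂ B | ψ y = 0} :=
    closure_minimal h1 hcl
  exact hy (h2 hφF)

/-- In an algebra with property (N) a central multiplier sequence that survives at one element
survives at every nonzero element. -/
theorem survives (hN : HasN A) (ω : Ultrafilter ℕ) (hω : (ω : Filter ℕ) ≤ atTop)
    {v : ℕ → Unitization ℂ A} (hvs : ∀ n, IsSelfAdjoint (v n)) (hv : ∀ n, ‖v n‖ ≤ 1)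
    (hc : ∀ a : A, Tendsto (fun n => ‖v n * (a : Unitization ℂ A) - a * v n‖) atTop (𝓝 0))
    {b : A} (hb : ¬ Tendsto (fun n => ‖v n * (b : Unitization ℂ A)‖) (ω : Filter ℕ) (𝓝 0))
    {w : A} (hw : w ≠ 0) :
    ∃ L > 0, ∀ᶠ n in (ω : Filter ℕ), L ≤ ‖v n * (w : Unitization ℂ A)‖ := by
  refine ultra_pos ω (fun _ => norm_nonneg _) fun hwJ => ?_
  let J : Set A := {j | Tendsto (fun n => ‖v n * (j : Unitization ℂ A)‖) (ω : Filter ℕ) (𝓝 0)}
  have hJr : ∀ j ∈ J, ∀ (z : A) (y : Unitization ℂ A),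
      (z : Unitization ℂ A) = (j : Unitization ℂ A) * y → z ∈ J := by
    intro j hj z y hz
    refine squeeze_zero (fun _ => norm_nonneg _) (fun n => ?_) (by simpa using hj.mul_const ‖y‖)
    rw [hz, ← mul_assoc]; exact norm_mul_le _ _
  have hright : ∀ j ∈ J, Tendsto (fun n => ‖(j : Unitization ℂ A) * v n‖) (ω : Filter ℕ) (𝓝 0) := by
    intro j hj
    refine squeeze_zero (fun _ => norm_nonneg _) (fun n => ?_)
      (by simpa using hj.add ((hc j).mono_left hω))
    calc ‖(j : Unitization ℂ A) * v n‖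
        = ‖v n * (j : Unitization ℂ A) - (v n * (j : Unitization ℂ A) - j * v n)‖ := by
          congr 1; abel
      _ ≤ _ := norm_sub_le _ _
  obtain ⟨δ, hδ, hev⟩ := ultra_pos ω (fun _ => norm_nonneg _) hb
  set B := (b : Unitization ℂ A)
  have ev : ∀ n, ∃ φ ∈ states (Unitization ℂ A), δ ≤ ‖v n * B‖ →
      (δ ^ 2 ≤ (φ (star B * B)).re ∧ ∀ j : A, ‖φ (star (j : Unitization ℂ A) * j)‖ ≤
        (‖(j : Unitization ℂ A) * star B * v n‖ / δ) ^ 2) := by
    intro n
    by_cases hn : δ ≤ ‖v n * B‖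
    · obtain ⟨φ, hφ, h⟩ := exists_state_bound (hvs n) (hv n) hδ hn
      exact ⟨φ, hφ, fun _ => h⟩
    · obtain ⟨φ, hφ, -⟩ := exists_norming_state (one_ne_zero (α := Unitization ℂ A))
      exact ⟨φ, hφ, fun h => absurd h hn⟩
  choose φn hφn hbound using ev
  obtain ⟨φ, hφ, hlim⟩ := isCompact_states.ultrafilter_le_nhds (ω.map φn)
    (by rw [le_principal_iff]; exact Filter.mem_map.2 (Filter.univ_mem' hφn))
  have hlim' : ∀ y, Tendsto (fun n => φn n y) (ω : Filter ℕ) (𝓝 (φ y)) := fun y =>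
    ((WeakDual.eval_continuous y).tendsto φ).comp (show Tendsto φn (ω : Filter ℕ) (𝓝 φ) from hlim)
  set F : Set (WeakDual ℂ (Unitization ℂ A)) :=
    {ψ | ψ ∈ states _ ∧ ∀ j ∈ J, ψ (star (j : Unitization ℂ A) * j) = 0}
  have hφF : φ ∈ F := by
    refine ⟨hφ, fun j hj => ?_⟩
    have hz : Tendsto (fun n => (‖(j : Unitization ℂ A) * star B * v n‖ / δ) ^ 2)
        (ω : Filter ℕ) (𝓝 0) := by
      have hjb : j * star b ∈ J := hJr j hj _ (star B) (by
        rw [Unitization.inr_mul, Unitization.inr_star])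
      have h := ((hright _ hjb).div_const δ).pow 2
      simpa [B, Unitization.inr_mul, Unitization.inr_star] using h
    have h1 : Tendsto (fun n => φn n (star (j : Unitization ℂ A) * j)) (ω : Filter ℕ) (𝓝 0) :=
      squeeze_zero_norm' (hev.mono fun n hn => (hbound n hn).2 j) hz
    exact tendsto_nhds_unique (hlim' _) h1
  have hφb : δ ^ 2 ≤ (φ (star B * B)).re :=
    ge_of_tendsto ((Complex.continuous_re.tendsto _).comp (hlim' _))
      (hev.mono fun n hn => (hbound n hn).1)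
  have hFc : IsCompact F := by
    refine isCompact_states.inter_right ?_
    show IsClosed {ψ : WeakDual ℂ (Unitization ℂ A) |
      ∀ j ∈ J, ψ (star (j : Unitization ℂ A) * j) = 0}
    simp only [Set.ofPred_forall]
    exact isClosed_iInter fun j => isClosed_iInter fun _ =>
      isClosed_eq (WeakDual.eval_continuous _) continuous_const
  have hFx : Convex ℝ F := by
    intro φ₁ h₁ φ₂ h₂ s t hs ht hst
    refine ⟨⟨fun y => ?_, ?_⟩, fun j hj => ?_⟩
    · show ‖s • φ₁ y + t • φ₂ y‖ ≤ ‖y‖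
      refine (norm_add_le _ _).trans ?_
      rw [norm_smul, norm_smul, Real.norm_of_nonneg hs, Real.norm_of_nonneg ht]
      have := mul_le_mul_of_nonneg_left (h₁.1.1 y) hs
      have := mul_le_mul_of_nonneg_left (h₂.1.1 y) ht
      have e : s * ‖y‖ + t * ‖y‖ = ‖y‖ := by rw [← add_mul, hst, one_mul]
      linarith
    · show s • φ₁ 1 + t • φ₂ 1 = 1
      rw [h₁.1.2, h₂.1.2, ← add_smul, hst, one_smul]
    · show s • φ₁ _ + t • φ₂ _ = 0
      rw [h₁.2 j hj, h₂.2 j hj, smul_zero, smul_zero, add_zero]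
  have hext : IsExtreme ℝ (states _) F := by
    refine ⟨fun ψ hψ => hψ.1, fun φ₁ h₁ φ₂ h₂ ψ hψ hseg => ⟨h₁, fun j hj => ?_⟩⟩
    obtain ⟨s, t, hs, ht, hst, rfl⟩ := hseg
    have h := hψ.2 j hj
    rw [show (s • φ₁ + t • φ₂) (star (j : Unitization ℂ A) * j) =
      s • φ₁ (star (j : Unitization ℂ A) * j) + t • φ₂ (star (j : Unitization ℂ A) * j) from rfl] at h
    have n1 := Complex.nonneg_iff.1 (state_nonneg h₁ (j : Unitization ℂ A))
    have n2 := Complex.nonneg_iff.1 (state_nonneg h₂ (j : Unitization ℂ A))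
    have hr := congrArg Complex.re h
    simp at hr
    have p1 := mul_nonneg hs.le n1.1
    have p2 := mul_nonneg ht.le n2.1
    exact Complex.ext (by simpa [hs.ne'] using (show s * _ = 0 by linarith)) n1.2.symm
  obtain ⟨ψ, hψ, hψb⟩ := exists_extreme_ne hFc hFx hφF (y := star B * B) fun h0 => by
    rw [h0, Complex.zero_re] at hφb
    have := pow_pos hδ 2
    linarith
  obtain ⟨H, _, _, _, π, ξ, hd, hinner, -, hirr⟩ :=
    rep_of_extreme (hext.extremePoints_subset_extremePoints hψ) hψb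
  have hπw : π (w : Unitization ℂ A) = 0 := by
    refine ContinuousLinearMap.ext fun u => ?_
    refine hd.induction_on (p := fun u => π (w : Unitization ℂ A) u = 0) u
      (isClosed_eq (π _).continuous continuous_const) fun y => ?_
    have hz : ((w * y.snd + y.fst • w : A) : Unitization ℂ A) = (w : Unitization ℂ A) * y := by
      conv_rhs => rw [← Unitization.inl_fst_add_inr_snd_eq y, mul_add, Unitization.inr_mul_inl,
        ← Unitization.inr_mul, ← Unitization.inr_add]
      rw [add_comm]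
    have h := hψ.1.2 _ (hJr w hwJ _ y hz)
    rw [hinner, inner_star_mul, hz, Complex.ofReal_eq_zero, sq_eq_zero_iff, norm_eq_zero] at h
    rw [← mul_apply_eq_comp, ← map_mul]
    exact h
  obtain ⟨K, _, _, _, σ, hσ, hσw⟩ := exists_irr hw
  obtain ⟨U, hU⟩ := hN.2 H K _ σ hirr hσ
  refine hσw (ContinuousLinearMap.ext fun u => ?_)
  obtain ⟨x, rfl⟩ := U.surjective u
  rw [← hU w x]
  simp [hπw]

/-- One step of the construction. -/
theorem refine_step {c : A} (hc : Good c) {x y : A} (hwx : star x * x = ww c * y) (hx0 : x ≠ 0)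
    (r : A →L[ℂ] A) (hr : ∀ s t, r (s * t) = r s * t) {ε : ℝ}
    (hε : ‖r (star x * x)‖ ≤ ε * ‖star x * x‖) :
    ∃ c', Good c' ∧ ee c * ee c' = ee c' ∧ ‖r (ee c')‖ ≤ 2 * ε := by
  have hN2 : 0 < ‖star x * x‖ := by
    rw [CStarRing.norm_star_mul_self]
    exact mul_pos (norm_pos_iff.2 hx0) (norm_pos_iff.2 hx0)
  refine ⟨_, good_normalize hx0, ?_, ?_⟩
  · rw [ee_eq (good_normalize hx0), ← mul_assoc]
    congr 1
    rw [mul_smul_comm, hwx, ← mul_assoc, ee_mul_ww]
  · rw [ee_eq (good_normalize hx0), hr]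
    refine (norm_mul_le _ _).trans ?_
    rw [← Complex.coe_smul, map_smul, norm_smul, Complex.norm_real,
      Real.norm_of_nonneg (by positivity)]
    have h5 : ‖cfcₙ gG ((‖star x * x‖)⁻¹ • (star x * x))‖ ≤ 2 := norm_cfcₙ_le fun t _ => gG_le t
    have hε0 : 0 ≤ ε := nonneg_of_mul_nonneg_left ((norm_nonneg _).trans hε) hN2
    calc ‖star x * x‖⁻¹ * ‖r (star x * x)‖ * ‖cfcₙ gG ((‖star x * x‖)⁻¹ • (star x * x))‖
        ≤ ‖star x * x‖⁻¹ * (ε * ‖star x * x‖) * 2 := by gcongr
      _ = 2 * ε := by field_simp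

/-- Two orthogonal central multiplier sequences cannot both survive along one ultrafilter. -/
theorem no_pair (hN : HasN A) (ω : Ultrafilter ℕ) (hω : (ω : Filter ℕ) ≤ atTop)
    {u v v' : ℕ → Unitization ℂ A} (hus : ∀ n, IsSelfAdjoint (u n))
    (hvs : ∀ n, IsSelfAdjoint (v n)) (hvs' : ∀ n, IsSelfAdjoint (v' n))
    (hv : ∀ n, ‖v n‖ ≤ 1) (hv' : ∀ n, ‖v' n‖ ≤ 1)
    (hcu : ∀ a : A, Tendsto (fun n => ‖u n * (a : Unitization ℂ A) - a * u n‖) atTop (𝓝 0))
    (hcv : ∀ a : A, Tendsto (fun n => ‖v n * (a : Unitization ℂ A) - a * v n‖) atTop (𝓝 0))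
    (hcv' : ∀ a : A, Tendsto (fun n => ‖v' n * (a : Unitization ℂ A) - a * v' n‖) atTop (𝓝 0))
    (huv : ∀ n, u n * v n = v n) (huv' : ∀ n, u n * v' n = 0) {b b' : A}
    (hb : ¬ Tendsto (fun n => ‖v n * (b : Unitization ℂ A)‖) (ω : Filter ℕ) (𝓝 0))
    (hb' : ¬ Tendsto (fun n => ‖v' n * (b' : Unitization ℂ A)‖) (ω : Filter ℕ) (𝓝 0)) : False := by
  have next_step : ∀ (c d : {c : A // Good c}) (k : ℕ),
      ∃ (c' d' : {c : A // Good c}) (n : ℕ), k ≤ n ∧ ee c.1 * ee c'.1 = ee c'.1 ∧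
      ee d.1 * ee d'.1 = ee d'.1 ∧ ‖left (u n) (ee c'.1) - ee c'.1‖ ≤ 2 / (k + 1) ∧
      ‖left (u n) (ee d'.1)‖ ≤ 2 / (k + 1) := by
    intro c d k
    set w := ww c.1
    set w' := ww d.1
    have hw : w ≠ 0 := fun h => by have := norm_ww c.2; simp [w, h] at this
    have hw' : w' ≠ 0 := fun h => by have := norm_ww d.2; simp [w', h] at this
    obtain ⟨L, hL, hLe⟩ := survives hN ω hω hvs hv hcv hb hw
    obtain ⟨L', hL', hLe'⟩ := survives hN ω hω hvs' hv' hcv' hb' hw'
    set m := min L L' with hm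
    have hm0 : 0 < m := lt_min hL hL'
    have ek : 0 < m ^ 2 / ((k : ℝ) + 1) := by positivity
    obtain ⟨n, hn, e1, e2, e3, e4⟩ := (Filter.Eventually.and (hω (eventually_ge_atTop k))
      ((((hcu w).mono_left hω).eventually (eventually_lt_nhds ek)).and
      ((((hcu w').mono_left hω).eventually (eventually_lt_nhds ek)).and
      (hLe.and hLe')))).exists
    have st : ∀ (z : Unitization ℂ A) (s : A), IsSelfAdjoint z → IsSelfAdjoint s →
        star ((left z s : A) : Unitization ℂ A) = (s : Unitization ℂ A) * z := by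
      intro z s hz hs
      rw [inr_left, star_mul, hz.star_eq, ← Unitization.inr_star, hs.star_eq]
    have ws : IsSelfAdjoint w := selfAdjoint_ww _
    have ws' : IsSelfAdjoint w' := selfAdjoint_ww _
    set x := left (v n) w
    set x' := left (v' n) w'
    have nx : ∀ (z : Unitization ℂ A) (s : A), ‖left z s‖ = ‖z * (s : Unitization ℂ A)‖ :=
      fun z s => by rw [← inr_left, Unitization.norm_inr]
    have hx : m ≤ ‖x‖ := by rw [nx]; exact (min_le_left _ _).trans e3
    have hx' : m ≤ ‖x'‖ := by rw [nx]; exact (min_le_right _ _).trans e4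
    have x1 : star x * x = w * left (v n) x := Unitization.inr_injective (R := ℂ) (by
      rw [Unitization.inr_mul, Unitization.inr_mul, Unitization.inr_star, st _ _ (hvs n) ws,
        inr_left (v n) x, mul_assoc])
    have x1' : star x' * x' = w' * left (v' n) x' := Unitization.inr_injective (R := ℂ) (by
      rw [Unitization.inr_mul, Unitization.inr_mul, Unitization.inr_star, st _ _ (hvs' n) ws',
        inr_left (v' n) x', mul_assoc])
    have vx : ∀ (z : Unitization ℂ A) (s : A), ‖z‖ ≤ 1 → ‖s‖ ≤ 1 →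
        ‖z * ((left z s : A) : Unitization ℂ A)‖ ≤ 1 := by
      intro z s hz hs
      rw [inr_left, ← mul_assoc]
      refine (norm_mul_le _ _).trans ?_
      rw [Unitization.norm_inr]
      exact mul_le_one₀ ((norm_mul_le _ _).trans (mul_le_one₀ hz (norm_nonneg _) hz))
        (norm_nonneg _) hs
    obtain ⟨c', hc', a1, a2⟩ := refine_step c.2 x1
      (fun h => by rw [h, norm_zero] at hx; linarith)
      (left (u n) - ContinuousLinearMap.id ℂ A) (fun s t => by simp [left_mul, sub_mul])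
      (ε := 1 / (k + 1)) (by
        simp only [sub_apply, ContinuousLinearMap.id_apply]
        rw [← Unitization.norm_inr (𝕜 := ℂ), Unitization.inr_sub, inr_left, x1, Unitization.inr_mul,
          inr_left (v n) x]
        have eid : u n * ((w : Unitization ℂ A) * (v n * (x : Unitization ℂ A))) -
            (w : Unitization ℂ A) * (v n * (x : Unitization ℂ A)) =
            (u n * (w : Unitization ℂ A) - w * u n) * (v n * (x : Unitization ℂ A)) := by
          rw [sub_mul, mul_assoc, mul_assoc _ (u n) (v n * _), ← mul_assoc (u n) (v n), huv]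
        rw [eid]
        refine (norm_mul_le _ _).trans ?_
        refine (mul_le_mul e1.le (vx _ _ (hv n) (norm_ww c.2).le) (norm_nonneg _) ek.le).trans ?_
        rw [← x1, CStarRing.norm_star_mul_self, mul_one, div_eq_inv_mul, one_div]
        gcongr
        nlinarith)
    obtain ⟨d', hd', b1, b2⟩ := refine_step d.2 x1'
      (fun h => by rw [h, norm_zero] at hx'; linarith)
      (left (u n)) (fun s t => left_mul _ _ _) (ε := 1 / (k + 1)) (by
        rw [← Unitization.norm_inr (𝕜 := ℂ), inr_left, x1', Unitization.inr_mul,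
          inr_left (v' n) x']
        have eid : u n * ((w' : Unitization ℂ A) * (v' n * (x' : Unitization ℂ A))) =
            (u n * (w' : Unitization ℂ A) - w' * u n) * (v' n * (x' : Unitization ℂ A)) := by
          rw [sub_mul, mul_assoc, mul_assoc _ (u n) (v' n * _), ← mul_assoc (u n) (v' n), huv',
            zero_mul, mul_zero, sub_zero]
        rw [eid]
        refine (norm_mul_le _ _).trans ?_
        refine (mul_le_mul e2.le (vx _ _ (hv' n) (norm_ww d.2).le) (norm_nonneg _) ek.le).trans ?_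
        rw [← x1', CStarRing.norm_star_mul_self, mul_one, div_eq_inv_mul, one_div]
        gcongr
        nlinarith)
    simp only [sub_apply, ContinuousLinearMap.id_apply] at a2
    exact ⟨⟨c', hc'⟩, ⟨d', hd'⟩, n, hn, a1, b1, a2.trans_eq (by ring), b2.trans_eq (by ring)⟩
  obtain ⟨⟨a₀, ha₀⟩, hN⟩ := hN
  choose fc fd fn hk hcc hdd hpc hpd using next_step
  let s : ℕ → {c : A // Good c} × {c : A // Good c} := fun k =>
    Nat.rec (⟨_, good_normalize ha₀⟩, ⟨_, good_normalize ha₀⟩)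
      (fun k q => (fc q.1 q.2 k, fd q.1 q.2 k)) k
  obtain ⟨H, _, _, _, π, ξ, hπ, hξ, hfξ⟩ := exists_fixed_vector (fun k => (s k).1.1)
    (fun k => (s k).1.2) fun k => hcc _ _ k
  obtain ⟨K, _, _, _, σ, η, hσ, hη, hfη⟩ := exists_fixed_vector (fun k => (s k).2.1)
    (fun k => (s k).2.2) fun k => hdd _ _ k
  obtain ⟨U, hU⟩ := hN H K π σ hπ hσ
  set ζ := U ξ
  have hζ : ‖ζ‖ = 1 := (U.norm_map ξ).trans hξ
  have hfζ : ∀ k, σ (ee (s k).1.1) ζ = ζ := fun k => (hU _ _).symm.trans (congrArg U (hfξ k))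
  obtain ⟨a, ha⟩ : ∃ a, ⟪η, σ a ζ⟫_ℂ ≠ 0 := by
    by_contra hall
    push Not at hall
    let L : A →ₗ[ℂ] K :=
      { toFun := fun a => σ a ζ, map_add' := fun a b => by simp, map_smul' := fun c a => by simp }
    let W := (LinearMap.range L).topologicalClosure
    have hinv : ∀ b, ∀ x ∈ W, σ b x ∈ W := by
      intro b x hx
      refine map_mem_closure (σ b).continuous hx ?_
      rintro _ ⟨c, rfl⟩
      exact ⟨b * c, by simp [L]⟩
    rcases hσ.2 W (Submodule.isClosed_topologicalClosure _) hinv with h | h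
    · have : ζ ∈ W := Submodule.le_topologicalClosure _ ⟨_, hfζ 0⟩
      rw [h, Submodule.mem_bot] at this
      rw [this, norm_zero] at hζ
      exact one_ne_zero hζ.symm
    · have hW : η ∈ W := h ▸ Submodule.mem_top
      have hcl : IsClosed {x : K | ⟪η, x⟫_ℂ = 0} :=
        isClosed_eq (continuous_const.inner continuous_id) continuous_const
      have : ⟪η, η⟫_ℂ = 0 := by
        refine closure_minimal ?_ hcl hW
        rintro _ ⟨c, rfl⟩
        exact hall c
      rw [inner_self_eq_zero.1 this, norm_zero] at hη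
      exact one_ne_zero hη.symm
  let n : ℕ → ℕ := fun k => fn (s k).1 (s k).2 k
  have hn : Tendsto n atTop atTop := tendsto_atTop_mono (fun k => hk _ _ k) tendsto_id
  -- extend `σ` to the unitization
  let τ := Unitization.starLift σ
  have hτ : ∀ y : A, τ (y : Unitization ℂ A) = σ y := fun y =>
    DFunLike.congr_fun (Unitization.starLift.symm_apply_apply σ) y
  have opτ : ∀ (y : Unitization ℂ A) (w : K), ‖τ y w‖ ≤ ‖y‖ * ‖w‖ := fun y w =>
    ((τ y).le_opNorm w).trans (mul_le_mul_of_nonneg_right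
      (NonUnitalStarAlgHom.norm_apply_le τ y) (norm_nonneg w))
  have lim : Tendsto (fun k : ℕ => 4 / ((k : ℝ) + 1) * ‖a‖ +
      ‖u (n k) * (a : Unitization ℂ A) - a * u (n k)‖) atTop (𝓝 0) := by
    have h0 : Tendsto (fun k : ℕ => 4 / ((k : ℝ) + 1)) atTop (𝓝 0) :=
      (tendsto_const_div_atTop_nhds_zero_nat 4).comp (tendsto_add_atTop_nat 1) |>.congr
        fun k => by simp
    simpa using (h0.mul_const ‖a‖).add ((hcu a).comp hn)
  have bound : ∀ k : ℕ, ‖⟪η, σ a ζ⟫_ℂ‖ ≤ 4 / ((k : ℝ) + 1) * ‖a‖ +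
      ‖u (n k) * (a : Unitization ℂ A) - a * u (n k)‖ := by
    intro k
    set P := u (n k)
    have q1 : ‖τ P ζ - ζ‖ ≤ 2 / ((k : ℝ) + 1) := by
      set e := ee (s (k + 1)).1.1
      have e' : τ P ζ - ζ = σ (left P e - e) ζ := by
        rw [map_sub, sub_apply, ← hτ (left P e), inr_left, map_mul, mul_apply_eq_comp, hτ,
          hfζ (k + 1)]
      rw [e', ← hτ]
      refine (opτ _ _).trans ?_
      rw [hζ, mul_one, Unitization.norm_inr]
      exact hpc _ _ k
    have q2 : ‖τ P η‖ ≤ 2 / ((k : ℝ) + 1) := by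
      set e := ee (s (k + 1)).2.1
      have e' : τ P η = σ (left P e) η := by
        rw [← hτ (left P e), inr_left, map_mul, mul_apply_eq_comp, hτ, hfη (k + 1)]
      rw [e', ← hτ]
      refine (opτ _ _).trans ?_
      rw [hη, mul_one, Unitization.norm_inr]
      exact hpd _ _ k
    have adj : ⟪η, τ P (σ a ζ)⟫_ℂ = ⟪τ P η, σ a ζ⟫_ℂ := by
      have : ContinuousLinearMap.adjoint (τ P) = τ P := by
        rw [← ContinuousLinearMap.star_eq_adjoint, ← map_star, show star P = P from hus (n k)]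
      conv_lhs => rw [← this, ContinuousLinearMap.adjoint_inner_right]
    have eq3 : σ a ζ = σ a (ζ - τ P ζ) - τ (P * (a : Unitization ℂ A) - a * P) ζ +
        τ P (σ a ζ) := by
      simp [map_sub, ← hτ]
    have na : ‖σ a ζ‖ ≤ ‖a‖ := by
      rw [← hτ]; refine (opτ _ _).trans ?_; rw [hζ, mul_one, Unitization.norm_inr]
    rw [eq3, inner_add_right, inner_sub_right, adj]
    have b1 : ‖⟪η, σ a (ζ - τ P ζ)⟫_ℂ‖ ≤ ‖a‖ * (2 / ((k : ℝ) + 1)) := by
      refine (norm_inner_le_norm _ _).trans ?_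
      rw [hη, one_mul, ← hτ]
      refine (opτ _ _).trans ?_
      rw [Unitization.norm_inr, norm_sub_rev]
      exact mul_le_mul_of_nonneg_left q1 (norm_nonneg _)
    have b2 : ‖⟪η, τ (P * (a : Unitization ℂ A) - a * P) ζ⟫_ℂ‖ ≤
        ‖P * (a : Unitization ℂ A) - a * P‖ := by
      refine (norm_inner_le_norm _ _).trans ?_
      rw [hη, one_mul]
      refine (opτ _ _).trans ?_
      rw [hζ, mul_one]
    have b3 : ‖⟪τ P η, σ a ζ⟫_ℂ‖ ≤ (2 / ((k : ℝ) + 1)) * ‖a‖ :=
      (norm_inner_le_norm _ _).trans (mul_le_mul q2 na (norm_nonneg _) (by positivity))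
    refine (norm_add_le _ _).trans ?_
    refine (add_le_add ((norm_sub_le _ _).trans (add_le_add b1 b2)) b3).trans (le_of_eq ?_)
    ring
  exact ha (norm_eq_zero.1 (le_antisymm (ge_of_tendsto' lim bound) (norm_nonneg _)))

end Vale.Agent.P070
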