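import Vale.Agent.P070.UniqueExtension
import Vale.Agent.P070.Compacts

/-!
# P070: flattening against a diagonal orthonormal basis
-/

namespace Vale.Agent.P070

open scoped ComplexOrder InnerProductSpace
open Filter Topology

universe u

/-- The bump of width one around `m`. -/
noncomputable def bump (m t : ℝ) : ℝ := max 0 (1 - 2 * |t - m|)

theorem bump_mem (m t : ℝ) : 0 ≤ bump m t ∧ bump m t ≤ 1 :=
  ⟨le_max_left _ _, max_le zero_le_one (by linarith [abs_nonneg (t - m)])⟩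

theorem continuous_bump (m : ℝ) : Continuous (bump m) := by unfold bump; fun_prop

theorem bump_self (m : ℝ) : bump m m = 1 := by simp [bump]

theorem bump_zero {m : ℝ} (hm : 1 ≤ m) : bump m 0 = 0 := by
  rw [bump, zero_sub, abs_neg, abs_of_nonneg (by linarith), max_eq_left (by linarith)]

theorem bump_eq_zero {m m' t : ℝ} (h : 1 ≤ |m - m'|) (hm : bump m t ≠ 0) : bump m' t = 0 := by
  rw [bump, max_eq_left]
  have h1 : |t - m| < 1 / 2 := by
    by_contra hle
    exact hm (by rw [bump, max_eq_left (by linarith)])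
  have h2 := abs_sub_le m t m'
  rw [abs_sub_comm m t] at h2
  linarith

theorem sum_bump {ι : Type*} (S : Finset ι) (r : ι → ℝ)
    (h : ∀ i ∈ S, ∀ j ∈ S, i ≠ j → 1 ≤ |r i - r j|) (t : ℝ) :
    ∑ i ∈ S, bump (r i) t = 0 ∨
      ∃ i ∈ S, bump (r i) t ≠ 0 ∧ ∑ j ∈ S, bump (r j) t = bump (r i) t := by
  by_cases hex : ∃ i ∈ S, bump (r i) t ≠ 0
  · obtain ⟨i, hi, hne⟩ := hex
    refine Or.inr ⟨i, hi, hne, Finset.sum_eq_single_of_mem i hi fun j hj hji => ?_⟩
    exact bump_eq_zero (h i hi j hj hji.symm) hne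
  · push Not at hex
    exact Or.inl (Finset.sum_eq_zero hex)

theorem sum_bump_mem {ι : Type*} (S : Finset ι) (r : ι → ℝ)
    (h : ∀ i ∈ S, ∀ j ∈ S, i ≠ j → 1 ≤ |r i - r j|) (t : ℝ) :
    0 ≤ ∑ i ∈ S, bump (r i) t ∧ ∑ i ∈ S, bump (r i) t ≤ 1 := by
  refine ⟨Finset.sum_nonneg fun i _ => (bump_mem _ _).1, ?_⟩
  rcases sum_bump S r h t with h0 | ⟨i, -, -, h1⟩
  · rw [h0]; exact zero_le_one
  · rw [h1]; exact (bump_mem _ _).2

variable {A : Type u} [NonUnitalCStarAlgebra A] {H : Type u} [NormedAddCommGroup H]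
  [InnerProductSpace ℂ H] [CompleteSpace H] {ι : Type*} {v : ι → H}

/-- Each finite family of basis indices is told apart by one self-adjoint element. -/
def Separates (π : A →⋆ₙₐ[ℂ] (H →L[ℂ] H)) (v : ι → H) : Prop :=
  ∀ S : Finset ι, ∃ (g : A) (r : ι → ℝ), IsSelfAdjoint g ∧
    (∀ i, π g (v i) = (r i : ℂ) • v i) ∧ (∀ i ∈ S, 1 ≤ r i) ∧
    ∀ i ∈ S, ∀ j ∈ S, i ≠ j → 1 ≤ |r i - r j|

omit [CompleteSpace H] in
/-- Finitely supported approximation. -/
theorem exists_approx (hd : (Submodule.span ℂ (Set.range v)).topologicalClosure = ⊤) (x : H)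
    {ε : ℝ} (hε : 0 < ε) :
    ∃ (S : Finset ι) (c : ι → ℂ), ‖x - ∑ i ∈ S, c i • v i‖ < ε := by
  have hx : x ∈ closure (Submodule.span ℂ (Set.range v) : Set H) := by
    have : x ∈ (Submodule.span ℂ (Set.range v)).topologicalClosure := by
      rw [hd]; exact Submodule.mem_top
    exact this
  obtain ⟨w, hw, hxw⟩ := Metric.mem_closure_iff.1 hx ε hε
  obtain ⟨c, rfl⟩ := Finsupp.mem_span_range_iff_exists_finsupp.1 hw
  exact ⟨c.support, c, by rwa [← dist_eq_norm]⟩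

omit [CompleteSpace H] in
theorem inner_sum_of_mem (hon : Orthonormal ℂ v) (S : Finset ι) (c : ι → ℂ) {j : ι} (hj : j ∉ S) :
    ⟪v j, ∑ i ∈ S, c i • v i⟫_ℂ = 0 := by
  rw [inner_sum]
  refine Finset.sum_eq_zero fun i hi => ?_
  rw [inner_smul_right, hon.2 (fun h : j = i => hj (h ▸ hi)), mul_zero]

omit [CompleteSpace H] in
/-- An infinite-dimensional subspace has unit vectors with uniformly small coefficients. -/
theorem exists_flat (hon : Orthonormal ℂ v)
    (hd : (Submodule.span ℂ (Set.range v)).topologicalClosure = ⊤) (E : Submodule ℂ H)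
    (hE : ¬ FiniteDimensional ℂ E) {ε : ℝ} (hε : 0 < ε) :
    ∃ u ∈ E, ‖u‖ = 1 ∧ ∀ y, ‖⟪v y, u⟫_ℂ‖ ≤ ε := by
  classical
  have key : ∀ k : ℕ, ∃ s ∈ E, ‖s‖ ^ 2 = k ∧ ∀ y, ‖⟪v y, s⟫_ℂ‖ ≤ 2 := by
    intro k
    induction k with
    | zero => exact ⟨0, E.zero_mem, by simp, fun y => by simp⟩
    | succ k ih =>
      obtain ⟨s, hs, hsn, hsy⟩ := ih
      obtain ⟨S, c, hSc⟩ := exists_approx hd s (one_pos)
      let L : H →ₗ[ℂ] (S → ℂ) × ℂ :=
        LinearMap.prod (LinearMap.pi fun y => (innerSL ℂ (v y.1) : H →ₗ[ℂ] ℂ))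
          (innerSL ℂ s : H →ₗ[ℂ] ℂ)
      obtain ⟨x, hxE, hx0, hxL⟩ : ∃ x ∈ E, x ≠ 0 ∧ L x = 0 := by
        by_contra hcon
        push Not at hcon
        refine hE (FiniteDimensional.of_injective (L ∘ₗ E.subtype) ?_)
        rw [← LinearMap.ker_eq_bot, LinearMap.ker_eq_bot']
        intro x hx
        by_contra hne
        exact hcon x.1 x.2 (fun h => hne (Subtype.ext h)) hx
      have hxS : ∀ y ∈ S, ⟪v y, x⟫_ℂ = 0 := fun y hy => congrFun (congrArg Prod.fst hxL) ⟨y, hy⟩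
      have hxs : ⟪s, x⟫_ℂ = 0 := congrArg Prod.snd hxL
      set z := (‖x‖ : ℂ)⁻¹ • x with hz
      have hzn : ‖z‖ = 1 := norm_smul_inv_norm hx0
      refine ⟨s + z, E.add_mem hs (E.smul_mem _ hxE), ?_, fun y => ?_⟩
      · have := norm_add_sq_eq_norm_sq_add_norm_sq_of_inner_eq_zero (𝕜 := ℂ) s z
          (by rw [hz, inner_smul_right, hxs, mul_zero])
        push_cast
        rw [← hsn, pow_two, this, hzn]
        ring
      · rw [inner_add_right]
        by_cases hy : y ∈ S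
        · rw [hz, inner_smul_right, hxS y hy, mul_zero, add_zero]
          exact hsy y
        · refine (norm_add_le _ _).trans ((add_le_add ?_ ?_).trans (by norm_num : (1 : ℝ) + 1 ≤ 2))
          · rw [← sub_zero ⟪v y, s⟫_ℂ, ← inner_sum_of_mem hon S c hy, ← inner_sub_right]
            refine (norm_inner_le_norm _ _).trans ?_
            rw [hon.1, one_mul]; exact hSc.le
          · exact (norm_inner_le_norm _ _).trans (by rw [hon.1, hzn, one_mul])
  obtain ⟨k, hk⟩ := exists_nat_gt ((2 / ε) ^ 2)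
  obtain ⟨s, hs, hsn, hsy⟩ := key k
  have hsp : 2 / ε < ‖s‖ := lt_of_pow_lt_pow_left₀ 2 (norm_nonneg _) (hsn ▸ hk)
  have hs0 : (0 : ℝ) < ‖s‖ := lt_trans (by positivity) hsp
  refine ⟨(‖s‖ : ℂ)⁻¹ • s, E.smul_mem _ hs, norm_smul_inv_norm (norm_pos_iff.1 hs0), fun y => ?_⟩
  rw [inner_smul_right, norm_mul, norm_inv, Complex.norm_real, Real.norm_of_nonneg (norm_nonneg _),
    inv_mul_le_iff₀ hs0]
  rw [div_lt_iff₀ hε] at hsp
  linarith [hsy y]

variable (ρ : Unitization ℂ A →⋆ₐ[ℂ] (H →L[ℂ] H))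

/-- The representation of `A` inside a representation of its unitization. -/
noncomputable abbrev restrRep : A →⋆ₙₐ[ℂ] (H →L[ℂ] H) :=
  ρ.toNonUnitalStarAlgHom.comp (Unitization.inrNonUnitalStarAlgHom ℂ A)

variable {ξ : H}

/-- One flattening step. -/
theorem exists_flat_step (hN : HasN A) (hirr : IsIrreducibleRep (restrRep ρ))
    (hnc : ∀ a, IsCompactOperator ((restrRep ρ) a) → (restrRep ρ) a = 0) (hon : Orthonormal ℂ v)
    (hd : (Submodule.span ℂ (Set.range v)).topologicalClosure = ⊤) (hsep : Separates (restrRep ρ) v)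
    (hξ : ‖ξ‖ = 1)
    (hexc : ∀ (s : Finset A) (ε : ℝ), 0 < ε → ∃ c : Unitization ℂ A, ‖c‖ ≤ 1 ∧ ρ c ξ = ξ ∧
      ∀ b ∈ s, ‖(b : Unitization ℂ A) * c‖ ^ 2 ≤ ‖ρ (b : Unitization ℂ A) ξ‖ ^ 2 + ε)
    {c₀ : A} (hc₀ : Good c₀) (hinj : Function.Injective (restrRep ρ)) {ε : ℝ} (hε : 0 < ε) :
    ∃ c₁, Good c₁ ∧ ee c₀ * ee c₁ = ee c₁ ∧ ∀ y, ‖(restrRep ρ) (ee c₁) (v y)‖ ≤ ε := by
  classical
  set π := (restrRep ρ) with hπ
  have hπρ : ∀ a : A, π a = ρ (a : Unitization ℂ A) := fun a => rfl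
  set δ : ℝ := min (ε / 80) (1 / 4) with hδ
  have hδ0 : 0 < δ := lt_min (by linarith) (by norm_num)
  have hδ4 : δ ≤ 1 / 4 := min_le_right _ _
  have hδε : 80 * δ ≤ ε := by linarith [min_le_left (ε / 80) (1 / 4)]
  have nπ : ∀ (a : A) (x : H), ‖π a x‖ ≤ ‖a‖ * ‖x‖ := norm_map_apply_le π
  have hwn : ‖ww c₀‖ = 1 := norm_ww hc₀
  let E : Submodule ℂ H := LinearMap.range (π (ww c₀) : H →ₗ[ℂ] H)
  have hE : ¬ FiniteDimensional ℂ E := fun hfin => by
    have h0 : π (ww c₀) = 0 :=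
      hnc _ (isCompactOperator_of_range (π (ww c₀)) E fun x => ⟨x, rfl⟩)
    rw [hinj (h0.trans (map_zero π).symm), norm_zero] at hwn
    exact zero_ne_one hwn
  obtain ⟨u, ⟨z, hz⟩, hun, huy⟩ := exists_flat hon hd E hE hδ0
  change π (ww c₀) z = u at hz
  obtain ⟨S, c, hSc⟩ := exists_approx hd u hδ0
  obtain ⟨g, r, hgs, hgv, hr1, hrd⟩ := hsep S
  set w := ∑ i ∈ S, c i • v i with hw
  set f : ℝ → ℝ := fun t => ∑ i ∈ S, bump (r i) t with hf
  have hfc : Continuous f := continuous_finsetSum _ fun i _ => continuous_bump _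
  have hf0 : f 0 = 0 := Finset.sum_eq_zero fun i hi => bump_zero (hr1 i hi)
  set d : A := cfcₙ f g with hd'
  set di : ι → A := fun i => cfcₙ (bump (r i)) g with hdi
  have hdv : ∀ y, π d (v y) = (f (r y) : ℂ) • v y := fun y =>
    map_cfcₙ_apply_eigen π hgs (hgv y) hfc hf0
  have hdiv : ∀ i ∈ S, ∀ y, π (di i) (v y) = (bump (r i) (r y) : ℂ) • v y := fun i hi y =>
    map_cfcₙ_apply_eigen π hgs (hgv y) (continuous_bump _) (bump_zero (hr1 i hi))
  have hdn : ‖d‖ ≤ 1 := norm_cfcₙ_le fun t _ => by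
    rw [Real.norm_eq_abs, abs_of_nonneg (sum_bump_mem S r hrd t).1]
    exact (sum_bump_mem S r hrd t).2
  have hdin : ∀ i, ‖di i‖ ≤ 1 := fun i => norm_cfcₙ_le fun t _ => by
    rw [Real.norm_eq_abs, abs_of_nonneg (bump_mem _ _).1]; exact (bump_mem _ _).2
  have hbS : ∀ i ∈ S, ∀ j ∈ S, j ≠ i → bump (r i) (r j) = 0 := fun i hi j hj hji =>
    bump_eq_zero (hrd j hj i hi hji) (by rw [bump_self]; exact one_ne_zero)
  have hdw : π d w = w := by
    rw [hw, map_sum]
    refine Finset.sum_congr rfl fun i hi => ?_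
    rw [map_smul, hdv, show f (r i) = 1 from ?_, Complex.ofReal_one, one_smul]
    rw [hf]
    dsimp only
    rw [Finset.sum_eq_single_of_mem i hi fun j hj hji => hbS j hj i hi hji.symm, bump_self]
  have hdiw : ∀ i ∈ S, ‖π (di i) w‖ = ‖⟪v i, w⟫_ℂ‖ := fun i hi => by
    have : π (di i) w = c i • v i := by
      rw [hw, map_sum, Finset.sum_eq_single_of_mem i hi fun j hj hji => by
        rw [map_smul, hdiv i hi, hbS i hi j hj hji, Complex.ofReal_zero, zero_smul, smul_zero],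
        map_smul, hdiv i hi, bump_self, Complex.ofReal_one, one_smul]
    rw [this, norm_smul, hon.1, mul_one, hw, hon.inner_right_sum c hi]
  obtain ⟨m₀, hm₀⟩ := dense_orbit hirr (fun h : ξ = 0 => by rw [h, norm_zero] at hξ; exact zero_ne_one hξ)
    z hδ0
  obtain ⟨T, hT⟩ : ∃ T, T = ww c₀ * m₀ := ⟨_, rfl⟩
  have hTu : ‖π T ξ - u‖ ≤ δ := by
    rw [hT, map_mul, mul_apply_eq_comp, ← hz, ← map_sub]
    refine (nπ _ _).trans ?_
    rw [hwn, one_mul]
    exact hm₀.le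
  have hTd : ‖π (T - d * T) ξ‖ ≤ 4 * δ := by
    have e : π (T - d * T) ξ = (π T ξ - u) - π d (π T ξ - u) + ((u - w) - π d (u - w)) := by
      simp only [map_sub, map_mul, sub_apply, mul_apply_eq_comp, hdw]
      abel
    rw [e]
    have h1 : ∀ x, ‖x - π d x‖ ≤ 2 * ‖x‖ := fun x => by
      refine (norm_sub_le _ _).trans ?_
      have := nπ d x
      nlinarith [norm_nonneg x]
    refine (norm_add_le _ _).trans ?_
    linarith [h1 (π T ξ - u), h1 (u - w), hSc.le]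
  have hTi : ∀ i ∈ S, ‖π (di i * T) ξ‖ ≤ 4 * δ := fun i hi => by
    have e : π (di i * T) ξ = π (di i) (π T ξ - u) + π (di i) (u - w) + π (di i) w := by
      simp only [map_sub, map_mul, mul_apply_eq_comp]
      abel
    rw [e]
    have h1 : ∀ x, ‖π (di i) x‖ ≤ ‖x‖ := fun x =>
      (nπ _ x).trans (mul_le_of_le_one_left (norm_nonneg _) (hdin i))
    have h2 : ‖⟪v i, w⟫_ℂ‖ ≤ 2 * δ := by
      rw [show w = u - (u - w) by abel, inner_sub_right]
      refine (norm_sub_le _ _).trans ?_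
      have := norm_inner_le_norm (𝕜 := ℂ) (v i) (u - w)
      rw [hon.1, one_mul] at this
      linarith [huy i, hSc.le]
    refine (norm_add₃_le).trans ?_
    linarith [h1 (π T ξ - u), h1 (u - w), hdiw i hi, hSc.le]
  obtain ⟨D, hDn, hDξ, hDb⟩ := hexc (insert (T - d * T) (S.image fun i => di i * T)) (δ ^ 2)
    (pow_pos hδ0 2)
  have hsmall : ∀ b ∈ insert (T - d * T) (S.image fun i => di i * T), ‖π b ξ‖ ≤ 4 * δ →
      ‖(b : Unitization ℂ A) * D‖ ≤ 5 * δ := fun b hb hle => by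
    have h := hDb b hb
    rw [← hπρ] at h
    nlinarith [norm_nonneg ((b : Unitization ℂ A) * D), norm_nonneg (π b ξ)]
  set t : A := ((T : Unitization ℂ A) * D).snd with ht
  have htD : ((t : A) : Unitization ℂ A) = (T : Unitization ℂ A) * D :=
    Unitization.ext (by simp) (by simp [ht])
  set m₁ : A := ((m₀ : Unitization ℂ A) * D).snd with hm₁
  have htw : t = ww c₀ * m₁ := Unitization.inr_injective (R := ℂ) (by
    rw [htD, hT, Unitization.inr_mul, Unitization.inr_mul, mul_assoc]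
    congr 1
    exact Unitization.ext (by simp) (by simp [hm₁]))
  have hts : ∀ b : A, ‖b * t‖ = ‖((b * T : A) : Unitization ℂ A) * D‖ := fun b => by
    rw [← Unitization.norm_inr (𝕜 := ℂ), Unitization.inr_mul, htD, ← mul_assoc, Unitization.inr_mul]
  have htξ : π t ξ = π T ξ := by
    rw [hπρ, htD, map_mul, mul_apply_eq_comp, hDξ, hπρ]
  have hnt : 1 / 2 ≤ ‖star t‖ := by
    have h1 : ‖⟪π t ξ, u⟫_ℂ‖ ≤ ‖star t‖ := by
      rw [inner_map_star' π t ξ u]
      refine (norm_inner_le_norm _ _).trans ?_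
      rw [hξ, one_mul]
      simpa [hun] using nπ (star t) u
    have h2 : ⟪π t ξ, u⟫_ℂ = ⟪u, u⟫_ℂ + ⟪π T ξ - u, u⟫_ℂ := by
      rw [htξ, ← inner_add_left, add_sub_cancel]
    have h3 := norm_inner_le_norm (𝕜 := ℂ) (π T ξ - u) u
    rw [hun, mul_one] at h3
    have h4 : (1 : ℝ) ≤ ‖⟪π t ξ, u⟫_ℂ‖ + ‖⟪π T ξ - u, u⟫_ℂ‖ := by
      have h5 := norm_sub_le ⟪π t ξ, u⟫_ℂ ⟪π T ξ - u, u⟫_ℂ
      have h6 : ⟪π t ξ, u⟫_ℂ - ⟪π T ξ - u, u⟫_ℂ = 1 := by
        rw [h2, add_sub_cancel_right, inner_self_eq_norm_sq_to_K, hun]; simp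
      rwa [h6, norm_one] at h5
    linarith
  set x := star t with hx
  have hxy : ∀ y, ‖π x (v y)‖ ≤ 10 * δ := fun y => by
    have hstar : ∀ b : A, IsSelfAdjoint b → ‖π x (π b (v y))‖ ≤ ‖b * t‖ := fun b hb => by
      rw [← mul_apply_eq_comp, ← map_mul, hx]
      refine (nπ _ _).trans ?_
      rw [hon.1, mul_one, show star t * b = star (b * t) by rw [star_mul, hb.star_eq], norm_star]
    have h1 : ‖π x (v y - π d (v y))‖ ≤ 5 * δ := by
      have e : π x (v y - π d (v y)) = π (star (t - d * t)) (v y) := by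
        have hds : star d = d := (cfcₙ_predicate f g : IsSelfAdjoint d).star_eq
        rw [star_sub, star_mul, hds, hx]
        simp
      rw [e]
      refine (nπ _ _).trans ?_
      rw [hon.1, mul_one, norm_star]
      refine le_trans (le_of_eq ?_) (hsmall _ (Finset.mem_insert_self _ _) hTd)
      rw [← Unitization.norm_inr (𝕜 := ℂ), Unitization.inr_sub, Unitization.inr_mul, htD,
        Unitization.inr_sub, Unitization.inr_mul, sub_mul, mul_assoc]
    have h2 : ‖π x (π d (v y))‖ ≤ 5 * δ := by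
      rcases sum_bump S r hrd (r y) with h0 | ⟨i, hi, -, hi'⟩
      · rw [hdv, show f (r y) = 0 from h0, Complex.ofReal_zero, zero_smul, map_zero, norm_zero]
        positivity
      · rw [hdv, show f (r y) = bump (r i) (r y) from hi', ← hdiv i hi]
        refine (hstar _ (cfcₙ_predicate _ g)).trans ?_
        rw [hts]
        exact hsmall _ (Finset.mem_insert_of_mem (Finset.mem_image_of_mem _ hi)) (hTi i hi)
    have e : π x (v y) = π x (v y - π d (v y)) + π x (π d (v y)) := by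
      rw [map_sub, sub_add_cancel]
    rw [e]
    exact (norm_add_le _ _).trans (by linarith)
  have hx0 : x ≠ 0 := fun h => by rw [h, norm_zero] at hnt; norm_num at hnt
  have hc₁ := good_normalize hx0
  refine ⟨(‖star x * x‖⁻¹ : ℝ) • (star x * x), hc₁, ?_, fun y => ?_⟩
  · rw [ee_eq hc₁, ← mul_assoc]
    congr 1
    rw [mul_smul_comm, hx, star_star]
    conv_lhs => rw [htw, ← mul_assoc, ← mul_assoc, ee_mul_ww]
    rw [← htw]
  · set G := cfcₙ gG ((‖star x * x‖⁻¹ : ℝ) • (star x * x)) with hG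
    have hcomm : ee ((‖star x * x‖⁻¹ : ℝ) • (star x * x)) = G * ((‖star x * x‖⁻¹ : ℝ) • (star x * x)) := by
      have h := congrArg star (ee_eq hc₁)
      have se : IsSelfAdjoint (ee ((‖star x * x‖⁻¹ : ℝ) • (star x * x))) := cfcₙ_predicate fF _
      have sG : IsSelfAdjoint (cfcₙ gG ((‖star x * x‖⁻¹ : ℝ) • (star x * x))) := cfcₙ_predicate gG _
      rwa [star_mul, hc₁.1.star_eq, se.star_eq, sG.star_eq] at h
    have hG2 : ‖G‖ ≤ 2 := norm_cfcₙ_le fun t _ => gG_le t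
    rw [hcomm, ← Complex.coe_smul, mul_smul_comm, map_smul, smul_apply, norm_smul,
      Complex.norm_real, Real.norm_of_nonneg (by positivity), map_mul, mul_apply_eq_comp,
      map_mul, mul_apply_eq_comp]
    set k : ℝ := ‖star x * x‖⁻¹ with hk
    have hk' : k = (‖x‖ * ‖x‖)⁻¹ := by rw [hk, CStarRing.norm_star_mul_self]
    have hxp : 0 < ‖x‖ := norm_pos_iff.2 hx0
    have hb : ‖π G (π (star x) (π x (v y)))‖ ≤ 2 * (‖x‖ * (10 * δ)) := by
      refine (nπ _ _).trans (mul_le_mul hG2 ?_ (norm_nonneg _) zero_le_two)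
      refine (nπ _ _).trans ?_
      rw [norm_star]
      exact mul_le_mul_of_nonneg_left (hxy y) (norm_nonneg _)
    calc k * ‖π G (π (star x) (π x (v y)))‖ ≤ k * (2 * (‖x‖ * (10 * δ))) :=
          mul_le_mul_of_nonneg_left hb (by rw [hk']; positivity)
      _ = 20 * δ / ‖x‖ := by rw [hk']; field_simp; ring
      _ ≤ ε := by rw [div_le_iff₀ hxp]; nlinarith

/-- Property (N) is incompatible with a separated diagonal basis and no compact operators. -/
theorem no_diagonal (hN : HasN A) (hirr : IsIrreducibleRep (restrRep ρ))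
    (hnc : ∀ a, IsCompactOperator ((restrRep ρ) a) → (restrRep ρ) a = 0) (hon : Orthonormal ℂ v)
    (hd : (Submodule.span ℂ (Set.range v)).topologicalClosure = ⊤) (hsep : Separates (restrRep ρ) v)
    (hξ : ‖ξ‖ = 1)
    (hexc : ∀ (s : Finset A) (ε : ℝ), 0 < ε → ∃ c : Unitization ℂ A, ‖c‖ ≤ 1 ∧ ρ c ξ = ξ ∧
      ∀ b ∈ s, ‖(b : Unitization ℂ A) * c‖ ^ 2 ≤ ‖ρ (b : Unitization ℂ A) ξ‖ ^ 2 + ε)
    (hinj : Function.Injective (restrRep ρ)) : False := by
  set π := (restrRep ρ) with hπ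
  have key : ∀ (c : {c : A // Good c}) (k : ℕ), ∃ c' : {c : A // Good c},
      ee c.1 * ee c'.1 = ee c'.1 ∧ ∀ y, ‖π (ee c'.1) (v y)‖ ≤ 1 / ((k : ℝ) + 1) := fun c k => by
    obtain ⟨c', h1, h2, h3⟩ := exists_flat_step ρ hN hirr hnc hon hd hsep hξ hexc c.2 hinj
      (ε := 1 / ((k : ℝ) + 1)) (by positivity)
    exact ⟨⟨c', h1⟩, h2, h3⟩
  choose nx hnest hsmall using key
  obtain ⟨a₀, ha₀⟩ := hN.1
  let s : ℕ → {c : A // Good c} := fun k => Nat.rec ⟨_, good_normalize ha₀⟩ (fun j q => nx q j) k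
  obtain ⟨K, _, _, _, σ, η, hσ, hη, hfix⟩ :=
    exists_fixed_vector (fun k => (s k).1) (fun k => (s k).2) fun k => hnest _ k
  obtain ⟨U, hU⟩ := hN.2 H K π σ hirr hσ
  set ζ := U.symm η
  have hζ : ‖ζ‖ = 1 := (U.symm.norm_map η).trans hη
  have hζf : ∀ k, π (ee (s k).1) ζ = ζ := fun k => U.injective (by
    rw [hU, LinearIsometryEquiv.apply_symm_apply, hfix k])
  obtain ⟨S, c, hSc⟩ := exists_approx hd ζ (show (0 : ℝ) < 1 / 2 by norm_num)
  have bound : ∀ k : ℕ, 1 ≤ 1 / 2 + (∑ i ∈ S, ‖c i‖) * (1 / ((k : ℝ) + 1)) := fun k => by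
    set E := ee (s (k + 1)).1
    have e : ζ = π E (ζ - ∑ i ∈ S, c i • v i) + ∑ i ∈ S, c i • π E (v i) := by
      simp only [map_sub, map_sum, map_smul, sub_add_cancel, hζf (k + 1), E]
    refine hζ.symm.le.trans ((congrArg norm e).le.trans ?_)
    refine (norm_add_le _ _).trans (add_le_add ?_ ?_)
    · refine (norm_map_apply_le π _ _).trans ?_
      exact (mul_le_of_le_one_left (norm_nonneg _) (norm_ee_le _)).trans hSc.le
    · refine (norm_sum_le _ _).trans ?_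
      rw [Finset.sum_mul]
      refine Finset.sum_le_sum fun i _ => ?_
      rw [norm_smul]
      exact mul_le_mul_of_nonneg_left (hsmall _ k i) (norm_nonneg _)
  have lim : Tendsto (fun k : ℕ => 1 / 2 + (∑ i ∈ S, ‖c i‖) * (1 / ((k : ℝ) + 1))) atTop
      (𝓝 (1 / 2 + (∑ i ∈ S, ‖c i‖) * 0)) :=
    tendsto_const_nhds.add (tendsto_one_div_add_atTop_nhds_zero_nat.const_mul _)
  have := ge_of_tendsto' lim bound
  simp at this
  norm_num at this

end Vale.Agent.P070
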