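import Vale.Agent.P070.Excise

/-!
# P070: bounded central sequences act as scalars
-/

namespace Vale.Agent.P070

open Filter Topology

universe u

variable {A : Type u} [NonUnitalCStarAlgebra A]

/-- Bounded sequence in the unitization asymptotically commuting with the algebra. -/
def Cen (P : ℕ → Unitization ℂ A) : Prop :=
  (∃ C : ℝ, ∀ n, ‖P n‖ ≤ C) ∧
    ∀ a : A, Tendsto (fun n => ‖P n * (a : Unitization ℂ A) - a * P n‖) atTop (𝓝 0)

theorem cen_const (z : ℂ) : Cen fun _ => (algebraMap ℂ (Unitization ℂ A) z) :=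
  ⟨⟨_, fun _ => le_rfl⟩, fun a => by simp [Algebra.commutes]⟩

theorem Cen.add {P Q : ℕ → Unitization ℂ A} (hP : Cen P) (hQ : Cen Q) :
    Cen fun n => P n + Q n := by
  obtain ⟨⟨C, hC⟩, hP⟩ := hP
  obtain ⟨⟨D, hD⟩, hQ⟩ := hQ
  refine ⟨⟨C + D, fun n => (norm_add_le _ _).trans (add_le_add (hC n) (hD n))⟩, fun a => ?_⟩
  refine squeeze_zero (fun _ => norm_nonneg _) (fun n => ?_) (by simpa using (hP a).add (hQ a))
  rw [add_mul, mul_add, add_sub_add_comm]
  exact norm_add_le _ _

theorem Cen.mul {P Q : ℕ → Unitization ℂ A} (hP : Cen P) (hQ : Cen Q) :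
    Cen fun n => P n * Q n := by
  obtain ⟨⟨C, hC⟩, hP⟩ := hP
  obtain ⟨⟨D, hD⟩, hQ⟩ := hQ
  refine ⟨⟨C * D, fun n => (norm_mul_le _ _).trans
    (mul_le_mul (hC n) (hD n) (norm_nonneg _) ((norm_nonneg _).trans (hC n)))⟩, fun a => ?_⟩
  refine squeeze_zero (fun _ => norm_nonneg _) (fun n => ?_)
    (by simpa using ((hQ a).const_mul C).add ((hP a).mul_const D))
  calc ‖P n * Q n * (a : Unitization ℂ A) - a * (P n * Q n)‖
      = ‖P n * (Q n * (a : Unitization ℂ A) - a * Q n) +
          (P n * (a : Unitization ℂ A) - a * P n) * Q n‖ := by congr 1; noncomm_ring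
    _ ≤ _ := (norm_add_le _ _).trans (add_le_add
      ((norm_mul_le _ _).trans (mul_le_mul_of_nonneg_right (hC n) (norm_nonneg _)))
      ((norm_mul_le _ _).trans (mul_le_mul_of_nonneg_left (hD n) (norm_nonneg _))))

variable {Y : ℕ → Unitization ℂ A} {C : ℝ}

theorem spec_le (hC : ∀ n, ‖Y n‖ ≤ C) (n : ℕ) {s : ℝ} (hs : s ∈ spectrum ℝ (Y n)) : |s| ≤ C :=
  (spectrum.norm_le_norm_of_mem hs).trans (hC n)

theorem cen_poly (hY : Cen Y) (hs : ∀ n, IsSelfAdjoint (Y n)) (p : Polynomial ℝ) :
    Cen fun n => cfc (fun s : ℝ => p.eval s) (Y n) := by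
  induction p using Polynomial.induction_on' with
  | add p q hp hq =>
    convert hp.add hq using 2 with n
    simp only [Polynomial.eval_add]
    exact cfc_add ..
  | monomial k c =>
    have hpow : ∀ k : ℕ, Cen fun n => Y n ^ k := by
      intro k
      induction k with
      | zero => simpa using cen_const (A := A) 1
      | succ k ih => simpa [pow_succ] using ih.mul hY
    convert (cen_const (A := A) (c : ℂ)).mul (hpow k) using 2 with n
    simp only [Polynomial.eval_monomial]
    rw [cfc_const_mul .., cfc_pow_id (R := ℝ) (Y n) k (hs n), ← Algebra.smul_def,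
      Complex.coe_smul]

theorem cen_cfc (hY : Cen Y) (hs : ∀ n, IsSelfAdjoint (Y n)) (hC : ∀ n, ‖Y n‖ ≤ C) {f : ℝ → ℝ}
    (hf : Continuous f) (a : A) : Tendsto
      (fun n => ‖cfc f (Y n) * (a : Unitization ℂ A) - a * cfc f (Y n)‖) atTop (𝓝 0) := by
  rw [Metric.tendsto_nhds]
  intro ε hε
  obtain ⟨p, hp⟩ := exists_polynomial_near_of_continuousOn (-C) C f hf.continuousOn
    (ε / (4 * (‖a‖ + 1))) (by positivity)
  filter_upwards [((cen_poly hY hs p).2 a).eventually (eventually_lt_nhds (half_pos hε))] with n hn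
  set P := cfc (fun s : ℝ => p.eval s) (Y n)
  have hd : ‖cfc f (Y n) - P‖ ≤ ε / (4 * (‖a‖ + 1)) := by
    have he : cfc (fun s => f s - p.eval s) (Y n) = cfc f (Y n) - P :=
      cfc_sub f (fun s : ℝ => p.eval s) (Y n) hf.continuousOn p.continuous.continuousOn
    rw [← he]
    refine norm_cfc_le (by positivity) fun s hmem => ?_
    rw [Real.norm_eq_abs, abs_sub_comm]
    exact (hp s (abs_le.1 (spec_le hC n hmem))).le
  rw [Real.dist_0_eq_abs, abs_norm]
  have e : cfc f (Y n) * (a : Unitization ℂ A) - a * cfc f (Y n) =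
      (P * (a : Unitization ℂ A) - a * P) + ((cfc f (Y n) - P) * (a : Unitization ℂ A) -
        a * (cfc f (Y n) - P)) := by noncomm_ring
  rw [e]
  refine (norm_add_le _ _).trans_lt ?_
  have hA : ‖(a : Unitization ℂ A)‖ = ‖a‖ := Unitization.norm_inr a
  have k1 : ‖(cfc f (Y n) - P) * (a : Unitization ℂ A) - a * (cfc f (Y n) - P)‖ ≤
      2 * (ε / (4 * (‖a‖ + 1))) * ‖a‖ := by
    refine (norm_sub_le _ _).trans ?_
    have := norm_mul_le (cfc f (Y n) - P) (a : Unitization ℂ A)
    have := norm_mul_le (a : Unitization ℂ A) (cfc f (Y n) - P)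
    have := mul_le_mul_of_nonneg_right hd (norm_nonneg a)
    rw [hA] at *
    linarith
  have k2 : 2 * (ε / (4 * (‖a‖ + 1))) * ‖a‖ ≤ ε / 2 := by
    rw [div_mul_eq_div_div, mul_div_assoc', div_mul_eq_mul_div, div_le_iff₀ (by positivity)]
    nlinarith [norm_nonneg a]
  linarith

/-- Piecewise linear cut-off, `0` up to `p` and `1` from `q` on. -/
noncomputable def ramp (p q s : ℝ) : ℝ := min 1 (max 0 ((s - p) / (q - p)))

theorem continuous_ramp (p q : ℝ) : Continuous (ramp p q) := by unfold ramp; fun_prop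

theorem ramp_abs (p q s : ℝ) : |ramp p q s| ≤ 1 := by
  rw [abs_le]
  exact ⟨by linarith [le_min (zero_le_one (α := ℝ)) (le_max_left 0 ((s - p) / (q - p))),
    show ramp p q s = min 1 (max 0 ((s - p) / (q - p))) from rfl], min_le_left _ _⟩

theorem ramp_of_le {p q s : ℝ} (hpq : p < q) (h : s ≤ p) : ramp p q s = 0 := by
  rw [ramp, max_eq_left (div_nonpos_of_nonpos_of_nonneg (by linarith) (by linarith)),
    min_eq_right zero_le_one]

theorem ramp_of_ge {p q s : ℝ} (hpq : p < q) (h : q ≤ s) : ramp p q s = 1 := by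
  have h1 : 1 ≤ (s - p) / (q - p) := (one_le_div (by linarith)).2 (by linarith)
  rw [ramp, max_eq_right (by linarith), min_eq_left h1]

/-- Some bounded cut-off vanishing on `S` survives along `ω`. -/
def Mass (ω : Ultrafilter ℕ) (Y : ℕ → Unitization ℂ A) (S : Set ℝ) : Prop :=
  ∃ f : ℝ → ℝ, Continuous f ∧ (∀ s, |f s| ≤ 1) ∧ (∀ s ∈ S, f s = 0) ∧
    ∃ b : A, ¬ Tendsto (fun n => ‖cfc f (Y n) * (b : Unitization ℂ A)‖) (ω : Filter ℕ) (𝓝 0)

theorem selfAdjoint_scalar (hN : HasN A) (ω : Ultrafilter ℕ) (hω : (ω : Filter ℕ) ≤ atTop)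
    (hY : Cen Y) (hs : ∀ n, IsSelfAdjoint (Y n)) :
    ∃ r : ℝ, ∀ a : A, Tendsto
      (fun n => ‖Y n * (a : Unitization ℂ A) - (r : ℂ) • (a : Unitization ℂ A)‖)
      (ω : Filter ℕ) (𝓝 0) := by
  obtain ⟨⟨C, hC⟩, -⟩ := id hY
  let S : Set ℝ := {t | Mass ω Y (Set.Iic t)}
  have hbdd : BddAbove S := by
    refine ⟨C, ?_⟩
    rintro t ⟨f, hf, -, hz, b, hb⟩
    refine not_lt.1 fun ht => hb ?_
    have : ∀ n, cfc f (Y n) = 0 := fun n => by
      rw [cfc_congr (g := fun _ => 0) fun s hmem =>
        hz s ((le_abs_self s).trans ((spec_le hC n hmem).trans ht.le))]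
      exact cfc_const_zero ℝ _
    simp [this]
  have hne : S.Nonempty := by
    obtain ⟨a, ha⟩ := hN.1
    refine ⟨-C - 2, ramp (-C - 2) (-C - 1), continuous_ramp _ _, ramp_abs _ _,
      fun s hmem => ramp_of_le (by linarith) hmem, a, fun h => ha ?_⟩
    have : ∀ n, cfc (ramp (-C - 2) (-C - 1)) (Y n) = 1 := fun n => by
      rw [cfc_congr (g := fun _ => 1) fun s hmem => ramp_of_ge (by linarith)
        (by linarith [(abs_le.1 (spec_le hC n hmem)).1])]
      exact cfc_const_one ℝ (Y n) (hs n)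
    simp only [this, one_mul, Unitization.norm_inr] at h
    exact norm_eq_zero.1 (tendsto_nhds_unique tendsto_const_nhds h)
  set r := sSup S
  have above : ∀ t, r < t → ¬ Mass ω Y (Set.Iic t) := fun t ht h =>
    (not_lt.2 (le_csSup hbdd (show t ∈ S from h))) ht
  have below : ∀ t, t < r → ¬ Mass ω Y (Set.Ici t) := by
    rintro t ht ⟨f', hf', hf'1, hz', b', hb'⟩
    obtain ⟨q, ⟨f, hf, hf1, hz, b, hb⟩, htq⟩ := exists_lt_of_lt_csSup hne ht
    have mulEq : ∀ (g : ℝ → ℝ) (n : ℕ), Continuous g →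
        cfc (ramp t q) (Y n) * cfc g (Y n) = cfc (fun s => ramp t q s * g s) (Y n) := fun g n hg =>
      (cfc_mul (ramp t q) g (Y n) (continuous_ramp t q).continuousOn hg.continuousOn).symm
    refine no_pair hN ω hω (fun n => cfc_predicate (ramp t q) (Y n))
      (fun n => cfc_predicate f (Y n)) (fun n => cfc_predicate f' (Y n))
      (fun n => norm_cfc_le zero_le_one fun s _ => hf1 s)
      (fun n => norm_cfc_le zero_le_one fun s _ => hf'1 s)
      (cen_cfc hY hs hC (continuous_ramp t q)) (cen_cfc hY hs hC hf) (cen_cfc hY hs hC hf')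
      (fun n => ?_) (fun n => ?_) hb hb'
    · rw [mulEq f n hf]
      refine cfc_congr fun s _ => ?_
      rcases le_total s q with h | h
      · simp [hz s h]
      · simp [ramp_of_ge htq h]
    · rw [mulEq f' n hf', cfc_congr (g := fun _ => 0) fun s _ => ?_]
      · exact cfc_const_zero ℝ _
      · rcases le_total s t with h | h
        · simp [ramp_of_le htq h]
        · simp [hz' s h]
  refine ⟨r, fun a => ?_⟩
  rw [Metric.tendsto_nhds]
  intro ε hε
  set δ := ε / (4 * (‖a‖ + 1)) with hδ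
  have hδ0 : 0 < δ := by positivity
  let P : ℝ → ℝ := ramp (r + δ) (r + 2 * δ)
  let M : ℝ → ℝ := fun s => 1 - ramp (r - 2 * δ) (r - δ) s
  have hP : Continuous P := continuous_ramp _ _
  have hM : Continuous M := continuous_const.sub (continuous_ramp _ _)
  have tP : Tendsto (fun n => ‖cfc P (Y n) * (a : Unitization ℂ A)‖) (ω : Filter ℕ) (𝓝 0) :=
    Classical.byContradiction fun h => above (r + δ) (by linarith)
      ⟨P, hP, ramp_abs _ _, fun s hmem => ramp_of_le (by linarith) hmem, a, h⟩
  have tM : Tendsto (fun n => ‖cfc M (Y n) * (a : Unitization ℂ A)‖) (ω : Filter ℕ) (𝓝 0) :=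
    Classical.byContradiction fun h => below (r - δ) (by linarith)
      ⟨M, hM, fun s => by
        have h1 : 0 ≤ ramp (r - 2 * δ) (r - δ) s := le_min zero_le_one (le_max_left _ _)
        have h2 : ramp (r - 2 * δ) (r - δ) s ≤ 1 := min_le_left _ _
        show |1 - ramp (r - 2 * δ) (r - δ) s| ≤ 1
        rw [abs_le]; constructor <;> linarith,
        fun s hmem => sub_eq_zero.2 (ramp_of_ge (by linarith) hmem).symm, a, h⟩
  have lim : Tendsto (fun n => (C + |r|) * (‖cfc P (Y n) * (a : Unitization ℂ A)‖ +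
      ‖cfc M (Y n) * (a : Unitization ℂ A)‖)) (ω : Filter ℕ) (𝓝 0) := by
    simpa using (tP.add tM).const_mul (C + |r|)
  filter_upwards [lim.eventually (eventually_lt_nhds (half_pos hε))] with n hn
  rw [Real.dist_0_eq_abs, abs_norm]
  let g : ℝ → ℝ := fun s => (s - r) * (1 - P s - M s)
  have hg : Continuous g := by fun_prop
  have hh : cfc (fun s => s - r) (Y n) = Y n - algebraMap ℝ (Unitization ℂ A) r := by
    rw [cfc_sub (fun s => s) (fun _ => r) (Y n), cfc_id' ℝ (Y n) (hs n), cfc_const r (Y n) (hs n)]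
  have hsplit : cfc (fun s => s - r) (Y n) = cfc g (Y n) +
      cfc (fun s => s - r) (Y n) * (cfc P (Y n) + cfc M (Y n)) := by
    rw [← cfc_add (a := Y n) P M hP.continuousOn hM.continuousOn,
      ← cfc_mul (fun s => s - r) _ (Y n) (by fun_prop) (by fun_prop),
      ← cfc_add (a := Y n) g _ hg.continuousOn (by fun_prop)]
    refine cfc_congr fun s _ => ?_
    simp only [g]; ring
  have e : Y n * (a : Unitization ℂ A) - (r : ℂ) • (a : Unitization ℂ A) =
      cfc g (Y n) * (a : Unitization ℂ A) + cfc (fun s => s - r) (Y n) *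
        (cfc P (Y n) * (a : Unitization ℂ A) + cfc M (Y n) * (a : Unitization ℂ A)) := by
    rw [← add_mul (cfc P (Y n)), ← mul_assoc, ← add_mul, ← hsplit, hh, sub_mul,
      ← Algebra.smul_def, Complex.coe_smul]
  rw [e]
  have hgn : ‖cfc g (Y n)‖ ≤ 2 * δ := by
    refine norm_cfc_le (by positivity) fun s _ => ?_
    rw [Real.norm_eq_abs, abs_mul]
    simp only [P, M]
    rcases le_total s (r - 2 * δ) with h | h
    · rw [ramp_of_le (by linarith) (show s ≤ r + δ by linarith), ramp_of_le (by linarith) h]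
      simp; positivity
    rcases le_total (r + 2 * δ) s with h' | h'
    · rw [ramp_of_ge (by linarith) h', ramp_of_ge (by linarith) (show r - δ ≤ s by linarith)]
      simp; positivity
    refine (mul_le_of_le_one_right (abs_nonneg _) ?_).trans (abs_le.2 ⟨by linarith, by linarith⟩)
    have h1 : 0 ≤ ramp (r + δ) (r + 2 * δ) s := le_min zero_le_one (le_max_left _ _)
    have h2 : ramp (r + δ) (r + 2 * δ) s ≤ 1 := min_le_left _ _
    have h3 : 0 ≤ ramp (r - 2 * δ) (r - δ) s := le_min zero_le_one (le_max_left _ _)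
    have h4 : ramp (r - 2 * δ) (r - δ) s ≤ 1 := min_le_left _ _
    rw [abs_le]; constructor <;> linarith
  have hhn : ‖cfc (fun s => s - r) (Y n)‖ ≤ C + |r| :=
    norm_cfc_le (add_nonneg ((norm_nonneg _).trans (hC n)) (abs_nonneg r)) fun s hmem =>
      (norm_sub_le s r).trans (add_le_add (spec_le hC n hmem) le_rfl)
  refine (norm_add_le _ _).trans_lt ?_
  have k1 : ‖cfc g (Y n) * (a : Unitization ℂ A)‖ ≤ 2 * δ * ‖a‖ := by
    refine (norm_mul_le _ _).trans ?_
    rw [Unitization.norm_inr]
    exact mul_le_mul_of_nonneg_right hgn (norm_nonneg _)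
  have k2 : 2 * δ * ‖a‖ ≤ ε / 2 := by
    rw [hδ, div_mul_eq_div_div, mul_div_assoc', div_mul_eq_mul_div, div_le_iff₀ (by positivity)]
    nlinarith [norm_nonneg a]
  have k3 := (norm_mul_le (cfc (fun s => s - r) (Y n))
      (cfc P (Y n) * (a : Unitization ℂ A) + cfc M (Y n) * (a : Unitization ℂ A))).trans
    (mul_le_mul hhn (norm_add_le _ _) (norm_nonneg _) ((norm_nonneg _).trans hhn))
  linarith

/-- Bounded central sequences act as scalars in algebras with property (N). -/
theorem central_scalar (hN : HasN A) : CentralSequencesScalar A := by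
  rintro x ⟨⟨C, hC⟩, hx⟩ ω hω
  let X : ℕ → Unitization ℂ A := fun n => (x n : Unitization ℂ A)
  have cX : Cen X := ⟨⟨C, fun n => by simpa [X, Unitization.norm_inr] using hC n⟩, fun a => by
    simpa [X, ← Unitization.inr_mul, ← Unitization.inr_sub, Unitization.norm_inr] using hx a⟩
  have cS : Cen fun n => star (X n) := ⟨⟨C, fun n => by
    simpa [X, Unitization.norm_inr] using hC n⟩, fun a => by
    have h := cX.2 (star a)
    refine h.congr fun n => ?_
    rw [← norm_star, star_sub, star_mul, star_mul, Unitization.inr_star, star_star, norm_sub_rev]⟩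
  let R : ℕ → Unitization ℂ A := fun n => (2 : ℂ)⁻¹ • (X n + star (X n))
  let I : ℕ → Unitization ℂ A := fun n => (-(Complex.I / 2)) • (X n + (-1 : ℂ) • star (X n))
  have cR : Cen R := by
    simpa [Algebra.smul_def, R] using (cen_const (A := A) (2 : ℂ)⁻¹).mul (cX.add cS)
  have cI : Cen I := by
    simpa [Algebra.smul_def, I] using (cen_const (A := A) (-(Complex.I / 2))).mul
      (cX.add ((cen_const (A := A) (-1)).mul cS))
  have sR : ∀ n, IsSelfAdjoint (R n) := fun n => by
    show star (R n) = R n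
    simp [R, star_smul, add_comm]
  have sI : ∀ n, IsSelfAdjoint (I n) := fun n => by
    show star (I n) = I n
    simp [I, star_smul, Complex.conj_I]
    module
  obtain ⟨p, hp⟩ := selfAdjoint_scalar hN ω hω cR sR
  obtain ⟨q, hq⟩ := selfAdjoint_scalar hN ω hω cI sI
  refine ⟨p + q * Complex.I, fun a => ?_⟩
  refine squeeze_zero (fun _ => norm_nonneg _) (fun n => ?_) (by simpa using (hp a).add (hq a))
  have e : ((x n * a - ((p : ℂ) + q * Complex.I) • a : A) : Unitization ℂ A) =
      (R n * (a : Unitization ℂ A) - (p : ℂ) • (a : Unitization ℂ A)) +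
        Complex.I • (I n * (a : Unitization ℂ A) - (q : ℂ) • (a : Unitization ℂ A)) := by
    simp only [R, I, X, Unitization.inr_sub, Unitization.inr_mul, Unitization.inr_smul,
      smul_mul_assoc, add_mul]
    have h2 : Complex.I * -(Complex.I / 2) = (2 : ℂ)⁻¹ := by
      linear_combination (-(2 : ℂ)⁻¹) * Complex.I_mul_I
    rw [smul_sub, smul_smul, h2, smul_smul]
    match_scalars <;> ring
  rw [← Unitization.norm_inr (𝕜 := ℂ) (x n * a - _), e]
  refine (norm_add_le _ _).trans (le_of_eq ?_)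
  rw [norm_smul, Complex.norm_I, one_mul]
  simp [Complex.coe_smul]

/-- A unital algebra with property (N) has no asymptotically central copy of `M₂`. -/
theorem no_central_matrix_units {A : Type u} [CStarAlgebra A] (hN : HasN A) :
    ¬ HasCentralMatrixUnits A := by
  rintro ⟨e, he, hu, hc⟩
  obtain ⟨a, ha⟩ := hN.1
  have : Nontrivial A := ⟨⟨a, 0, ha⟩⟩
  set p : ℕ → A := fun n => star (e n) * e n with hp
  set q : ℕ → A := fun n => e n * star (e n) with hq
  have pq : ∀ n, p n * q n = 0 := fun n => by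
    simp only [p, q, mul_assoc, ← mul_assoc (e n) (e n), he, zero_mul, mul_zero]
  have hs : ∀ n, star (e n) ≠ 0 := fun n h0 => one_ne_zero (α := A) (by
    rw [← hu n, h0, star_eq_zero.1 h0]; simp)
  have norms : ∀ n, ‖p n‖ = 1 ∧ ‖q n‖ = 1 := by
    intro n
    have one : ∀ r : A, r ≠ 0 → star r = r → r * r = r → ‖r‖ = 1 := fun r h0 h1 h2 => by
      have h3 := CStarRing.norm_star_mul_self (x := r)
      rw [h1, h2] at h3
      have := norm_pos_iff.2 h0
      nlinarith
    have hp2 : p n * p n = p n := by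
      conv_rhs => rw [← mul_one (p n), ← hu n]
      rw [show star (e n) * e n + e n * star (e n) = p n + q n from rfl, mul_add, pq, add_zero]
    have hq2 : q n * q n = q n := by
      have qp : q n * p n = 0 := by
        simp only [p, q, mul_assoc, ← mul_assoc (star (e n)) (star (e n)), ← star_mul, he,
          star_zero, zero_mul, mul_zero]
      conv_rhs => rw [← mul_one (q n), ← hu n]
      rw [show star (e n) * e n + e n * star (e n) = p n + q n from rfl, mul_add, qp, zero_add]
    exact ⟨one _ (fun h => hs n (star_eq_zero.2 (CStarRing.star_mul_self_eq_zero_iff _ |>.1 h)))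
      (by simp [p]) hp2,
      one _ (fun h => hs n (star_eq_zero.2 (CStarRing.mul_star_self_eq_zero_iff _ |>.1 h)))
      (by simp [q]) hq2⟩
  have hcs : IsCentralSequence p := by
    refine ⟨⟨1, fun n => (norms n).1.le⟩, fun a => ?_⟩
    have he1 : ∀ n, ‖e n‖ = 1 := fun n => by
      have h3 := CStarRing.norm_star_mul_self (x := e n)
      rw [show star (e n) * e n = p n from rfl, (norms n).1] at h3
      nlinarith [norm_nonneg (e n)]
    have hse : Tendsto (fun n => ‖star (e n) * a - a * star (e n)‖) atTop (𝓝 0) :=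
      (hc (star a)).congr fun n => by
        rw [← norm_star, star_sub, star_mul, star_mul, star_star, norm_sub_rev]
    refine squeeze_zero (fun _ => norm_nonneg _) (fun n => ?_) (by simpa using (hc a).add hse)
    calc ‖p n * a - a * p n‖ = ‖star (e n) * (e n * a - a * e n) +
          (star (e n) * a - a * star (e n)) * e n‖ := by congr 1; simp only [p]; noncomm_ring
      _ ≤ _ := (norm_add_le _ _).trans (add_le_add
        ((norm_mul_le _ _).trans (by rw [norm_star, he1 n, one_mul]))
        ((norm_mul_le _ _).trans (by rw [he1 n, mul_one])))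
  obtain ⟨z, hz⟩ := central_scalar hN p hcs (Ultrafilter.of atTop) (Ultrafilter.of_le _)
  have h1 := hz 1
  obtain ⟨n, hn⟩ := (h1.eventually (eventually_lt_nhds (show (0 : ℝ) < 1 / 4 by norm_num))).exists
  simp only [mul_one] at hn
  have a1 : ‖z‖ ≤ 1 / 4 := by
    have : (p n - z • (1 : A)) * q n = -(z • q n) := by rw [sub_mul, pq, smul_one_mul, zero_sub]
    have h4 := norm_mul_le (p n - z • (1 : A)) (q n)
    rw [this, norm_neg, norm_smul, (norms n).2, mul_one, mul_one] at h4
    linarith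
  have a2 : ‖p n‖ ≤ ‖p n - z • (1 : A)‖ + ‖z • (1 : A)‖ := norm_le_norm_sub_add _ _
  rw [(norms n).1, norm_smul, norm_one, mul_one] at a2
  linarith

end Vale.Agent.P070
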