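import Mathlib

/-!
# P070: states of a unital C*-algebra and the representations of the extremal ones
-/

namespace Vale.Agent.P070

open scoped ComplexOrder InnerProductSpace
open ComplexConjugate

universe u

/-- A representation is irreducible if it is nonzero and has no nontrivial closed invariant
subspace. -/
def IsIrreducibleRep {A : Type*} [NonUnitalCStarAlgebra A] {H : Type*} [NormedAddCommGroup H]
    [InnerProductSpace ℂ H] [CompleteSpace H] (π : A →⋆ₙₐ[ℂ] (H →L[ℂ] H)) : Prop :=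
  (∃ a, π a ≠ 0) ∧ ∀ K : Submodule ℂ H, IsClosed (K : Set H) →
    (∀ a, ∀ x ∈ K, π a x ∈ K) → K = ⊥ ∨ K = ⊤

variable {B : Type u} [CStarAlgebra B]

/-- The states: contractive functionals of value `1` at the unit. -/
def states (B : Type u) [CStarAlgebra B] : Set (WeakDual ℂ B) :=
  {φ | (∀ a, ‖φ a‖ ≤ ‖a‖) ∧ φ 1 = 1}

theorem state_real {φ : WeakDual ℂ B} (hφ : φ ∈ states B) {h : B} (hh : IsSelfAdjoint h) :
    (φ h).im = 0 := by
  rcases subsingleton_or_nontrivial B with hB | hB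
  · have := hφ.2
    rw [Subsingleton.elim (1 : B) 0, map_zero] at this
    exact absurd this zero_ne_one
  by_contra hne
  set t : ℝ := (‖h‖ ^ 2 + 1) / (2 * (φ h).im) with ht
  have h1 : ‖φ (h + (Complex.I * t) • (1 : B))‖ ^ 2 ≤ ‖h‖ ^ 2 + t ^ 2 := by
    refine (pow_le_pow_left₀ (norm_nonneg _) (hφ.1 _) 2).trans ?_
    rw [sq, ← CStarRing.norm_star_mul_self]
    have e : star (h + (Complex.I * t) • (1 : B)) * (h + (Complex.I * t) • (1 : B))
        = h * h + ((t ^ 2 : ℝ) : ℂ) • (1 : B) := by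
      rw [star_add, star_smul, star_one, hh.star_eq, star_mul']
      simp only [Complex.star_def, Complex.conj_I, Complex.conj_ofReal, add_mul, mul_add,
        smul_mul_assoc, mul_smul_comm, one_mul, mul_one]
      push_cast
      match_scalars <;> (try ring_nf) <;> simp [Complex.I_sq]
    rw [e]
    refine (norm_add_le _ _).trans (add_le_add ?_ (le_of_eq ?_))
    · rw [sq]; exact norm_mul_le _ _
    · rw [norm_smul, norm_one, mul_one, Complex.norm_real]
      exact Real.norm_of_nonneg (sq_nonneg t)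
  rw [map_add, map_smul, hφ.2, Complex.sq_norm] at h1
  simp [Complex.normSq_apply] at h1
  have h2 : 2 * (φ h).im * t = ‖h‖ ^ 2 + 1 := by rw [ht]; field_simp
  nlinarith [mul_self_nonneg (φ h).re, mul_self_nonneg (φ h).im]

theorem state_nonneg {φ : WeakDual ℂ B} (hφ : φ ∈ states B) (a : B) :
    0 ≤ φ (star a * a) := by
  let := CStarAlgebra.spectralOrder B
  have := CStarAlgebra.spectralOrderedRing B
  have hi := state_real hφ (IsSelfAdjoint.star_mul_self a)
  set h := star a * a with hh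
  refine Complex.nonneg_iff.2 ⟨?_, hi.symm⟩
  by_cases h0 : ‖h‖ = 0
  · simp [norm_eq_zero.1 h0]
  have hM : 0 < ‖h‖ := lt_of_le_of_ne (norm_nonneg _) (Ne.symm h0)
  have hn : 0 ≤ h := star_mul_self_nonneg a
  have e : cfc (fun x : ℝ => (2 / ‖h‖) * x - 1) h = ((2 / ‖h‖ : ℝ) : ℂ) • h - 1 := by
    rw [cfc_sub .., cfc_const_mul .., cfc_id' ℝ h, cfc_const_one .., Complex.coe_smul]
  have hle : ‖((2 / ‖h‖ : ℝ) : ℂ) • h - 1‖ ≤ 1 := by
    rw [← e]
    refine norm_cfc_le zero_le_one fun x hx => ?_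
    have x0 := spectrum_nonneg_of_nonneg hn hx
    have x1 : x ≤ ‖h‖ := by
      rcases subsingleton_or_nontrivial B with hB | hB
      · exact absurd (by simp [Subsingleton.elim h 0]) h0
      · exact (Real.le_norm_self x).trans (spectrum.norm_le_norm_of_mem hx)
    rw [Real.norm_eq_abs, abs_le]
    have e2 : 2 / ‖h‖ * x = 2 * (x / ‖h‖) := by ring
    have : x / ‖h‖ ≤ 1 := (div_le_one hM).2 x1
    have : 0 ≤ x / ‖h‖ := by positivity
    constructor <;> linarith
  have := (Complex.abs_re_le_norm _).trans ((hφ.1 _).trans hle)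
  rw [map_sub, map_smul, hφ.2, abs_le] at this
  simp only [Complex.sub_re, smul_eq_mul, Complex.mul_re, Complex.ofReal_re, Complex.ofReal_im,
    zero_mul, sub_zero, Complex.one_re] at this
  have h3 : 0 ≤ 2 / ‖h‖ * (φ h).re := by linarith
  exact (mul_nonneg_iff_of_pos_left (by positivity)).1 h3

theorem isCompact_states : IsCompact (states B) := by
  refine (WeakDual.isCompact_closedBall (𝕜 := ℂ) (0 : StrongDual ℂ B) 1).of_isClosed_subset
    ?_ ?_
  · simp only [states, Set.ofPred_and, Set.ofPred_forall]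
    refine (isClosed_iInter fun a => ?_).inter ?_
    · exact isClosed_le (WeakDual.eval_continuous a).norm continuous_const
    · exact isClosed_eq (WeakDual.eval_continuous 1) continuous_const
  · intro φ hφ
    simp only [Set.mem_preimage, Metric.mem_closedBall, dist_zero_right]
    exact ContinuousLinearMap.opNorm_le_bound _ zero_le_one fun a => by rw [one_mul]; exact hφ.1 a

/-- The states with value `1` on given elements of norm at most `1` have an extremal one. -/
theorem exists_extreme {ι : Type*} (e : ι → B) (he : ∀ i, ‖e i‖ ≤ 1)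
    (hne : ∀ s : Finset ι, ∃ φ ∈ states B, ∀ i ∈ s, φ (e i) = 1) :
    ∃ φ ∈ Set.extremePoints ℝ (states B), ∀ i, φ (e i) = 1 := by
  set F : Set (WeakDual ℂ B) := {φ | φ ∈ states B ∧ ∀ i, φ (e i) = 1} with hF
  have hFc : IsCompact F := by
    refine isCompact_states.inter_right ?_
    show IsClosed {φ : WeakDual ℂ B | ∀ i, φ (e i) = 1}
    rw [Set.ofPred_forall]
    exact isClosed_iInter fun i => isClosed_eq (WeakDual.eval_continuous _) continuous_const
  have hFn : F.Nonempty := by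
    have h := isCompact_states (B := B) |>.inter_iInter_nonempty
      (fun i => {φ : WeakDual ℂ B | φ (e i) = 1})
      (fun i => isClosed_eq (WeakDual.eval_continuous _) continuous_const) fun s => by
        obtain ⟨φ, hφ, hs⟩ := hne s
        exact ⟨φ, hφ, Set.mem_iInter₂.2 hs⟩
    obtain ⟨φ, hφ, hs⟩ := h
    exact ⟨φ, hφ, fun i => Set.mem_iInter.1 hs i⟩
  have hext : IsExtreme ℝ (states B) F := by
    refine ⟨fun φ hφ => hφ.1, fun φ₁ h₁ φ₂ h₂ φ hφ hseg => ⟨h₁, fun i => ?_⟩⟩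
    obtain ⟨a, b, ha, hb, hab, rfl⟩ := hseg
    have h := congrArg Complex.re (hφ.2 i)
    have n1 : ‖φ₁ (e i)‖ ≤ 1 := (h₁.1 _).trans (he i)
    have n2 : ‖φ₂ (e i)‖ ≤ 1 := (h₂.1 _).trans (he i)
    rw [show (a • φ₁ + b • φ₂) (e i) = a • φ₁ (e i) + b • φ₂ (e i) from rfl] at h
    simp only [Complex.add_re,
      Complex.real_smul, Complex.re_ofReal_mul, Complex.one_re] at h
    have r1 := (Complex.re_le_norm (φ₁ (e i))).trans n1
    have r2 := (Complex.re_le_norm (φ₂ (e i))).trans n2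
    have e1 : (φ₁ (e i)).re = 1 := by nlinarith
    have e2 : (φ₁ (e i)).im = 0 := by
      have := Complex.normSq_eq_norm_sq (φ₁ (e i))
      rw [Complex.normSq_apply, e1] at this
      nlinarith [mul_self_nonneg (φ₁ (e i)).im, norm_nonneg (φ₁ (e i))]
    exact Complex.ext e1 e2
  have : LocallyConvexSpace ℝ (WeakDual ℂ B) :=
    inferInstanceAs (LocallyConvexSpace ℝ (WeakBilin (topDualPairing ℂ B)))
  obtain ⟨φ, hφ⟩ := hFc.extremePoints_nonempty hFn
  exact ⟨φ, hext.extremePoints_subset_extremePoints hφ, hφ.1.2⟩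

section gns

variable [PartialOrder B] [StarOrderedRing B]

/-- A state as a positive linear map. -/
noncomputable def toPos {φ : WeakDual ℂ B} (hφ : φ ∈ states B) : B →ₚ[ℂ] ℂ :=
  PositiveLinearMap.mk₀
    { toFun := fun a => φ a, map_add' := fun a b => map_add φ a b,
      map_smul' := fun c a => map_smul φ c a } fun a ha => by
    obtain ⟨b, rfl⟩ := CStarAlgebra.nonneg_iff_eq_star_mul_self.1 ha
    exact state_nonneg hφ b

end gns

theorem exists_cyclic {φ : WeakDual ℂ B} (hφ : φ ∈ states B) :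
    ∃ (H : Type u) (_ : NormedAddCommGroup H) (_ : InnerProductSpace ℂ H) (_ : CompleteSpace H)
      (π : B →⋆ₐ[ℂ] (H →L[ℂ] H)) (ξ : H), ‖ξ‖ = 1 ∧ DenseRange (fun a => π a ξ) ∧
      ∀ a, φ a = ⟪ξ, π a ξ⟫_ℂ := by
  let := CStarAlgebra.spectralOrder B
  have := CStarAlgebra.spectralOrderedRing B
  let f := toPos hφ
  refine ⟨f.GNS, inferInstance, inferInstance, inferInstance, f.gnsStarAlgHom,
    ((f.toPreGNS 1 : f.PreGNS) : f.GNS), ?_, ?_, ?_⟩
  · rw [UniformSpace.Completion.norm_coe, PositiveLinearMap.preGNS_norm_def]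
    simp only [PositiveLinearMap.ofPreGNS_toPreGNS, star_one, mul_one]
    show Real.sqrt (φ 1).re = 1
    simp [hφ.2]
  · refine (UniformSpace.Completion.denseRange_coe (α := f.PreGNS)).mono ?_
    rintro _ ⟨x, rfl⟩
    refine ⟨f.ofPreGNS x, ?_⟩
    simp [PositiveLinearMap.gnsStarAlgHom]
  · intro a
    simp [PositiveLinearMap.gnsStarAlgHom, UniformSpace.Completion.inner_coe,
      PositiveLinearMap.preGNS_inner_def]
    rfl

/-- The cyclic representation of an extremal state is irreducible. -/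
theorem extreme_irreducible {φ : WeakDual ℂ B} (hφ : φ ∈ Set.extremePoints ℝ (states B))
    {H : Type*} [NormedAddCommGroup H] [InnerProductSpace ℂ H] [CompleteSpace H]
    (π : B →⋆ₐ[ℂ] (H →L[ℂ] H)) {ξ : H} (hξ : ‖ξ‖ = 1) (hd : DenseRange fun a => π a ξ)
    (he : ∀ a, φ a = ⟪ξ, π a ξ⟫_ℂ) (K : Submodule ℂ H) (hK : IsClosed (K : Set H))
    (hinv : ∀ a, ∀ x ∈ K, π a x ∈ K) : K = ⊥ ∨ K = ⊤ := by
  have : CompleteSpace K := hK.completeSpace_coe
  set P := K.starProjection with hP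
  have hperp : ∀ a, ∀ x ∈ Kᗮ, π a x ∈ Kᗮ := by
    intro a x hx
    rw [Submodule.mem_orthogonal] at hx ⊢
    intro u hu
    have : π a = ContinuousLinearMap.adjoint (π (star a)) := by
      rw [← ContinuousLinearMap.star_eq_adjoint, ← map_star, star_star]
    rw [this, ContinuousLinearMap.adjoint_inner_right]
    exact hx _ (hinv _ u hu)
  have hcomm : ∀ a y, P (π a y) = π a (P y) := by
    intro a y
    have h1 : y = P y + (y - P y) := by abel
    conv_lhs => rw [h1, map_add, map_add]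
    rw [Submodule.starProjection_eq_self_iff.2 (hinv a _ (K.starProjection_apply_mem y)),
      (K.starProjection_apply_eq_zero_iff).2
        (hperp a _ (K.sub_starProjection_mem_orthogonal y)), add_zero]
  set p := P ξ with hp
  set q := ξ - p with hq
  have hpK : p ∈ K := K.starProjection_apply_mem ξ
  have hqK : q ∈ Kᗮ := K.sub_starProjection_mem_orthogonal ξ
  have cyc : ∀ z : H, (∀ a, ⟪z, π a ξ⟫_ℂ = 0) → z = 0 := by
    intro z hz
    have : ∀ y, ⟪z, y⟫_ℂ = 0 := fun y =>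
      hd.induction_on y (isClosed_eq (by fun_prop) continuous_const) hz
    exact inner_self_eq_zero.1 (this z)
  by_cases hp0 : p = 0
  · left
    rw [eq_bot_iff]
    intro x hx
    refine (Submodule.mem_bot ℂ).2 (cyc x fun a => ?_)
    have hξ' : ξ ∈ Kᗮ := (K.starProjection_apply_eq_zero_iff).1 hp0
    exact Submodule.inner_right_of_mem_orthogonal hx (hperp a ξ hξ')
  by_cases hq0 : q = 0
  · right
    rw [eq_top_iff]
    intro x _
    have hξ' : ξ ∈ K := by
      have : ξ = p := sub_eq_zero.1 hq0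
      rw [this]; exact hpK
    exact hd.induction_on (p := fun x => x ∈ K) x hK fun a => hinv a ξ hξ'
  exfalso
  have mk : ∀ z : H, z ≠ 0 → ∃ ψ ∈ states B, ∀ a,
      ψ a = ((1 / ‖z‖ ^ 2 : ℝ) : ℂ) * ⟪z, π a z⟫_ℂ := by
    intro z hz
    let ψ : B →ₗ[ℂ] ℂ :=
      { toFun := fun a => ((1 / ‖z‖ ^ 2 : ℝ) : ℂ) * ⟪z, π a z⟫_ℂ
        map_add' := fun a b => by simp [mul_add]
        map_smul' := fun c a => by simp; ring }
    have hb : ∀ a, ‖ψ a‖ ≤ 1 * ‖a‖ := by
      intro a
      have hz' : 0 < ‖z‖ := norm_pos_iff.2 hz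
      have h1 : ‖⟪z, π a z⟫_ℂ‖ ≤ ‖a‖ * ‖z‖ ^ 2 := by
        refine (norm_inner_le_norm _ _).trans ?_
        have := (π a).le_opNorm z
        have := NonUnitalStarAlgHom.norm_apply_le π a
        have := norm_nonneg z
        nlinarith
      simp only [ψ, LinearMap.coe_mk, AddHom.coe_mk, norm_mul, Complex.norm_real]
      rw [Real.norm_of_nonneg (by positivity), one_mul]
      calc 1 / ‖z‖ ^ 2 * ‖⟪z, π a z⟫_ℂ‖ ≤ 1 / ‖z‖ ^ 2 * (‖a‖ * ‖z‖ ^ 2) := by gcongr
        _ = ‖a‖ := by field_simp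
    refine ⟨(ψ.mkContinuous 1 hb : StrongDual ℂ B), ⟨fun a => ?_, ?_⟩, fun a => rfl⟩
    · exact (hb a).trans (le_of_eq (one_mul _))
    · show ((1 / ‖z‖ ^ 2 : ℝ) : ℂ) * ⟪z, π 1 z⟫_ℂ = 1
      simp [hz, inner_self_eq_norm_sq_to_K]
  obtain ⟨ψp, hψp, ep⟩ := mk p hp0
  obtain ⟨ψq, hψq, eq'⟩ := mk q hq0
  have hsum : ‖p‖ ^ 2 + ‖q‖ ^ 2 = 1 := by
    have h := norm_add_sq_eq_norm_sq_add_norm_sq_of_inner_eq_zero (𝕜 := ℂ) p q
      (Submodule.inner_right_of_mem_orthogonal hpK hqK)
    rw [show p + q = ξ by rw [hq]; abel, hξ] at h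
    nlinarith
  have hpp : 0 < ‖p‖ ^ 2 := by positivity
  have hqq : 0 < ‖q‖ ^ 2 := by positivity
  have hdec : ∀ a, φ a = ⟪p, π a p⟫_ℂ + ⟪q, π a q⟫_ℂ := by
    intro a
    rw [he, show ξ = p + q by rw [hq]; abel, map_add, inner_add_left, inner_add_right,
      inner_add_right, Submodule.inner_right_of_mem_orthogonal hpK (hperp a q hqK),
      Submodule.inner_left_of_mem_orthogonal (hinv a p hpK) hqK]
    ring
  have hseg : φ ∈ openSegment ℝ ψp ψq := by
    refine ⟨‖p‖ ^ 2, ‖q‖ ^ 2, hpp, hqq, hsum, ?_⟩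
    refine DFunLike.ext _ _ fun a => ?_
    show (‖p‖ ^ 2) • ψp a + (‖q‖ ^ 2) • ψq a = φ a
    simp only [Complex.real_smul, ep, eq', hdec]
    have : (‖p‖ : ℂ) ≠ 0 := by simp [hp0]
    have : (‖q‖ : ℂ) ≠ 0 := by simp [hq0]
    push_cast
    field_simp
  have heq : ψp = φ := (hφ.2 hψp hψq hseg)
  refine hq0 ?_
  have hz : p = ((‖p‖ ^ 2 : ℝ) : ℂ) • ξ := sub_eq_zero.1 (cyc _ fun a => by
    have h1 := ep a
    rw [heq, he] at h1
    have h2 : ⟪p, π a ξ⟫_ℂ = ⟪p, π a p⟫_ℂ := by
      conv_lhs => rw [show ξ = p + q by rw [hq]; abel, map_add, inner_add_right,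
        Submodule.inner_right_of_mem_orthogonal hpK (hperp a q hqK), add_zero]
    rw [inner_sub_left, inner_smul_left, Complex.conj_ofReal, h1, h2]
    have : (‖p‖ : ℂ) ≠ 0 := by simp [hp0]
    push_cast
    field_simp
    ring)
  have hξK : ξ ∈ K := by
    have : ξ = ((‖p‖ ^ 2 : ℝ) : ℂ)⁻¹ • p := by
      rw [eq_inv_smul_iff₀ (by simpa using hp0)]
      exact hz.symm
    rw [this]; exact K.smul_mem _ hpK
  rw [hq, hp, Submodule.starProjection_eq_self_iff.2 hξK, sub_self]

end Vale.Agent.P070
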