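import Vale.Agent.P070.Excise

/-!
# P070: functional calculus on eigenvectors, dense orbits, vector states
-/

namespace Vale.Agent.P070

open scoped ComplexOrder InnerProductSpace
open Filter Topology

universe u

section eigen

variable {H : Type*} [NormedAddCommGroup H] [InnerProductSpace ℂ H] [CompleteSpace H]

theorem apply_pow_eigen {T : H →L[ℂ] H} {v : H} {r : ℂ} (hv : T v = r • v) (n : ℕ) :
    (T ^ n) v = r ^ n • v := by
  induction n with
  | zero => simp
  | succ n ih => rw [pow_succ, mul_apply_eq_comp, hv, map_smul, ih, smul_smul, pow_succ']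

/-- Functional calculus acts on an eigenvector by the value at the eigenvalue. -/
theorem cfc_apply_eigen {T : H →L[ℂ] H} (hT : IsSelfAdjoint T) {v : H} {r : ℝ}
    (hv : T v = (r : ℂ) • v) {f : ℝ → ℝ} (hf : Continuous f) :
    cfc f T v = (f r : ℂ) • v := by
  by_cases hv0 : v = 0
  · simp [hv0]
  have hH : Nontrivial (H →L[ℂ] H) := by
    refine ⟨1, 0, fun h => hv0 ?_⟩
    simpa using congrArg (fun S : H →L[ℂ] H => S v) h
  set R : ℝ := max ‖T‖ |r| with hR
  rw [← sub_eq_zero, ← norm_le_zero_iff]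
  refine le_of_forall_pos_le_add fun ε hε => ?_
  rw [zero_add]
  set δ : ℝ := ε / (2 * (‖v‖ + 1)) with hδ
  have hδ0 : 0 < δ := by positivity
  obtain ⟨p, hp⟩ := exists_polynomial_near_of_continuousOn (-R) R f hf.continuousOn δ hδ0
  have hsub : ∀ x ∈ spectrum ℝ T, |p.eval x - f x| < δ := fun x hx => by
    refine hp x (abs_le.1 ?_)
    exact ((Real.norm_eq_abs x).symm.le.trans (spectrum.norm_le_norm_of_mem hx)).trans
      (le_max_left _ _)
  have hn : ‖cfc f T - cfc p.eval T‖ ≤ δ := by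
    rw [← cfc_sub f p.eval T]
    exact norm_cfc_le hδ0.le fun x hx => by
      rw [Real.norm_eq_abs, abs_sub_comm]; exact (hsub x hx).le
  have hpv : cfc p.eval T v = ((p.eval r : ℝ) : ℂ) • v := by
    rw [cfc_polynomial p T]
    clear hn hsub hp
    induction p using Polynomial.induction_on' with
    | add p q hp hq =>
      simp only [map_add, add_apply, hp, hq, Polynomial.eval_add, Complex.ofReal_add, add_smul]
    | monomial n a =>
      simp only [Polynomial.aeval_monomial, Algebra.algebraMap_eq_smul_one, smul_mul_assoc, one_mul,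
        smul_apply, apply_pow_eigen hv, Polynomial.eval_monomial]
      rw [← Complex.coe_smul, smul_smul]
      push_cast
      ring_nf
  have hr : |p.eval r - f r| < δ := hp r (abs_le.1 (le_max_right _ _))
  calc ‖cfc f T v - (f r : ℂ) • v‖
      = ‖(cfc f T - cfc p.eval T) v + (((p.eval r : ℝ) : ℂ) - f r) • v‖ := by
        rw [sub_apply, hpv, sub_smul]; abel_nf
    _ ≤ δ * ‖v‖ + δ * ‖v‖ := by
        refine (norm_add_le _ _).trans (add_le_add ?_ ?_)
        · exact (ContinuousLinearMap.le_opNorm _ _).trans (by gcongr)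
        · rw [norm_smul, ← Complex.ofReal_sub, Complex.norm_real, Real.norm_eq_abs]
          gcongr
    _ ≤ ε := by
        rw [hδ]
        have h : ε / (2 * (‖v‖ + 1)) * (2 * (‖v‖ + 1)) = ε := div_mul_cancel₀ ε (by positivity)
        have : 0 ≤ ε / (2 * (‖v‖ + 1)) := by positivity
        nlinarith

/-- Non-unital functional calculus acts on an eigenvector by the value at the eigenvalue. -/
theorem cfcₙ_apply_eigen {T : H →L[ℂ] H} (hT : IsSelfAdjoint T) {v : H} {r : ℝ}
    (hv : T v = (r : ℂ) • v) {f : ℝ → ℝ} (hf : Continuous f) (hf0 : f 0 = 0) :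
    cfcₙ f T v = (f r : ℂ) • v := by
  rw [cfcₙ_eq_cfc hf.continuousOn hf0]
  exact cfc_apply_eigen hT hv hf

variable {A : Type u} [NonUnitalCStarAlgebra A]

theorem continuous_rep (π : A →⋆ₙₐ[ℂ] (H →L[ℂ] H)) : Continuous π :=
  AddMonoidHomClass.continuous_of_bound π 1 fun a => by
    simpa using NonUnitalStarAlgHom.norm_apply_le π a

theorem map_cfcₙ_apply_eigen (π : A →⋆ₙₐ[ℂ] (H →L[ℂ] H)) {a : A} (ha : IsSelfAdjoint a) {v : H}
    {r : ℝ} (hv : π a v = (r : ℂ) • v) {f : ℝ → ℝ} (hf : Continuous f) (hf0 : f 0 = 0) :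
    π (cfcₙ f a) v = (f r : ℂ) • v := by
  rw [NonUnitalStarAlgHom.map_cfcₙ π f a hf.continuousOn hf0 (continuous_rep π) ha (ha.map π)]
  exact cfcₙ_apply_eigen (ha.map π) hv hf hf0

theorem inner_map_star (π : A →⋆ₙₐ[ℂ] (H →L[ℂ] H)) (a : A) (x y : H) :
    ⟪π (star a) x, y⟫_ℂ = ⟪x, π a y⟫_ℂ := by
  rw [map_star, ContinuousLinearMap.star_eq_adjoint, ContinuousLinearMap.adjoint_inner_left]

theorem inner_map_star' (π : A →⋆ₙₐ[ℂ] (H →L[ℂ] H)) (a : A) (x y : H) :
    ⟪π a x, y⟫_ℂ = ⟪x, π (star a) y⟫_ℂ := by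
  simpa using inner_map_star π (star a) x y

/-- Applying a representation. -/
theorem norm_map_apply_le (π : A →⋆ₙₐ[ℂ] (H →L[ℂ] H)) (a : A) (x : H) : ‖π a x‖ ≤ ‖a‖ * ‖x‖ :=
  ((π a).le_opNorm x).trans (by gcongr; exact NonUnitalStarAlgHom.norm_apply_le π a)

/-- The vectors of an orbit are dense. -/
theorem dense_orbit {π : A →⋆ₙₐ[ℂ] (H →L[ℂ] H)} (hπ : IsIrreducibleRep π) {ξ : H} (hξ : ξ ≠ 0)
    (y : H) {ε : ℝ} (hε : 0 < ε) : ∃ a, ‖π a ξ - y‖ < ε := by
  let L : A →ₗ[ℂ] H :=
    { toFun := fun a => π a ξ, map_add' := fun a b => by simp, map_smul' := fun c a => by simp }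
  let W := (LinearMap.range L).topologicalClosure
  have hinv : ∀ b, ∀ x ∈ W, π b x ∈ W := by
    intro b x hx
    refine map_mem_closure (π b).continuous hx ?_
    rintro _ ⟨c, rfl⟩
    exact ⟨b * c, by simp [L]⟩
  rcases hπ.2 W (Submodule.isClosed_topologicalClosure _) hinv with h | h
  · exfalso
    have hN : ∀ a, π a ξ = 0 := fun a => by
      have : π a ξ ∈ W := Submodule.le_topologicalClosure _ ⟨a, rfl⟩
      rwa [h, Submodule.mem_bot] at this
    let N : Submodule ℂ H :=
      { carrier := {x | ∀ a, π a x = 0}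
        add_mem' := fun hx hy a => by simp [hx a, hy a]
        zero_mem' := fun a => by simp
        smul_mem' := fun c x hx a => by simp [hx a] }
    have hNc : IsClosed (N : Set H) := by
      show IsClosed {x | ∀ a, π a x = 0}
      rw [Set.ofPred_forall]
      exact isClosed_iInter fun a => isClosed_eq (π a).continuous continuous_const
    rcases hπ.2 N hNc (fun a x hx b => by rw [hx a]; simp) with hb | ht
    · exact hξ ((Submodule.mem_bot ℂ).1 (hb ▸ (hN : ξ ∈ N)))
    · obtain ⟨a, ha⟩ := hπ.1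
      exact ha (ContinuousLinearMap.ext fun x => by
        simpa using (show x ∈ N from ht ▸ Submodule.mem_top) a)
  · have hy : y ∈ closure (LinearMap.range L : Set H) := by
      have hW : y ∈ W := by rw [h]; exact Submodule.mem_top
      exact hW
    obtain ⟨_, ⟨a, rfl⟩, ha⟩ := Metric.mem_closure_iff.1 hy ε hε
    exact ⟨a, by rwa [← dist_eq_norm, dist_comm]⟩

end eigen

section states

variable {B : Type u} [CStarAlgebra B]

variable {H : Type*} [NormedAddCommGroup H] [InnerProductSpace ℂ H] [CompleteSpace H]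

/-- The vector state of a unit vector. -/
theorem exists_vector_state (π : B →⋆ₐ[ℂ] (H →L[ℂ] H)) {ξ : H} (hξ : ‖ξ‖ = 1) :
    ∃ φ ∈ states B, ∀ a, φ a = ⟪ξ, π a ξ⟫_ℂ := by
  let ψ : B →ₗ[ℂ] ℂ :=
    { toFun := fun a => ⟪ξ, π a ξ⟫_ℂ
      map_add' := fun a b => by simp
      map_smul' := fun c a => by simp }
  have hb : ∀ a, ‖ψ a‖ ≤ 1 * ‖a‖ := fun a => by
    refine (norm_inner_le_norm _ _).trans ?_
    rw [hξ, one_mul, one_mul]
    refine ((π a).le_opNorm ξ).trans ?_
    rw [hξ, mul_one]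
    exact NonUnitalStarAlgHom.norm_apply_le π a
  refine ⟨(ψ.mkContinuous 1 hb : StrongDual ℂ B), ⟨fun a => ?_, ?_⟩, fun a => rfl⟩
  · exact (hb a).trans (le_of_eq (one_mul _))
  · show ⟪ξ, π 1 ξ⟫_ℂ = 1
    simp [hξ, inner_self_eq_norm_sq_to_K]

end states

end Vale.Agent.P070
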