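import Vale.Agent.P070.Tools
import Vale.Agent.P070.Defs

/-!
# P070: a character of a commutative subalgebra with unique state extension, and excision there
-/

namespace Vale.Agent.P070

open scoped ComplexOrder InnerProductSpace
open Filter Topology

universe u

/-- A character of a C*-algebra commutes with functional calculus. -/
theorem char_cfcₙ {C : Type*} [NonUnitalCStarAlgebra C] (χ : C →⋆ₙₐ[ℂ] ℂ) {x : C}
    (hx : IsSelfAdjoint x) {r : ℝ} (hr : χ x = (r : ℂ)) {f : ℝ → ℝ} (hf : Continuous f)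
    (hf0 : f 0 = 0) : χ (cfcₙ f x) = (f r : ℂ) := by
  have hc : Continuous χ := AddMonoidHomClass.continuous_of_bound χ 1 fun a => by
    simpa using NonUnitalStarAlgHom.norm_apply_le χ a
  rw [NonUnitalStarAlgHom.map_cfcₙ χ f x hf.continuousOn hf0 hc hx (hx.map χ), hr,
    cfcₙ_eq_cfc hf.continuousOn hf0, show (r : ℂ) = algebraMap ℝ ℂ r from rfl, cfc_algebraMap]
  rfl

/-- Functional calculus of a sandwich. -/
theorem sandwich_cfc {C : Type*} [CStarAlgebra C] (S : C) {f g : ℝ → ℝ} (hf : Continuous f)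
    (hg : Continuous g) :
    cfc (fun t => f t * (g t * f t)) S = cfc f S * (cfc g S * cfc f S) := by
  rw [cfc_mul f (fun t => g t * f t) S hf.continuousOn (hg.mul hf).continuousOn,
    cfc_mul g f S hg.continuousOn hf.continuousOn]

/-- Cutting off `k` where `k* k` is large makes it small. -/
theorem norm_mul_cutoff {C : Type*} [CStarAlgebra C] (k : C) {δ : ℝ} (hδ : 0 < δ) :
    ‖k * cfc (fun t : ℝ => 1 - min 1 (max 0 (t / δ))) (star k * k)‖ *
      ‖k * cfc (fun t : ℝ => 1 - min 1 (max 0 (t / δ))) (star k * k)‖ ≤ δ := by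
  let := CStarAlgebra.spectralOrder C
  have := CStarAlgebra.spectralOrderedRing C
  set S := star k * k with hS
  have hSs : IsSelfAdjoint S := IsSelfAdjoint.star_mul_self k
  have hf : Continuous fun t : ℝ => 1 - min 1 (max 0 (t / δ)) := by fun_prop
  have e := sandwich_cfc S hf (g := fun t : ℝ => t) continuous_id
  rw [cfc_id' ℝ S hSs] at e
  set R := cfc (fun t : ℝ => 1 - min 1 (max 0 (t / δ))) S with hR
  have hRs : star R = R := (cfc_predicate _ S : IsSelfAdjoint R).star_eq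
  rw [← CStarRing.norm_star_mul_self, star_mul, hRs, mul_assoc, ← mul_assoc (star k), ← hS, ← e]
  refine norm_cfc_le hδ.le fun t ht => ?_
  have t0 := spectrum_nonneg_of_nonneg (show 0 ≤ S from star_mul_self_nonneg k) ht
  have m1 : (0 : ℝ) ≤ min 1 (max 0 (t / δ)) := le_min zero_le_one (le_max_left _ _)
  have m2 : min 1 (max 0 (t / δ)) ≤ 1 := min_le_left _ _
  rw [Real.norm_eq_abs, abs_of_nonneg (mul_nonneg (by linarith) (mul_nonneg t0 (by linarith)))]
  rcases le_total t δ with h | h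
  · calc _ ≤ 1 * (δ * 1) := by gcongr <;> linarith
      _ = δ := by ring
  · have h1 : min 1 (max 0 (t / δ)) = 1 := by
      have : 1 ≤ t / δ := (one_le_div hδ).2 h
      rw [max_eq_right (zero_le_one.trans this), min_eq_left this]
    rw [h1]; simpa using hδ.le

/-- A regular commutative subalgebra with a character of unique extension. -/
structure DiagPoint (A : Type u) [NonUnitalCStarAlgebra A] where
  D : NonUnitalStarSubalgebra ℂ A
  closed : IsClosed (D : Set A)
  comm : ∀ x ∈ D, ∀ y ∈ D, x * y = y * x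
  regular : IsRegular D
  χ : D →⋆ₙₐ[ℂ] ℂ
  nonzero : ∃ d, χ d ≠ 0
  unique : HasUniqueExtension χ

variable {A : Type u} [NonUnitalCStarAlgebra A]

namespace DiagPoint

variable (P : DiagPoint A)

/-- The elements of the subalgebra of norm at most one on which the character is one. -/
def Peak : Type u := {g : P.D // ‖g‖ ≤ 1 ∧ P.χ g = 1}

/-- `g* g` in the unitization. -/
def sq (g : P.Peak) : Unitization ℂ A :=
  star ((g.1 : A) : Unitization ℂ A) * ((g.1 : A) : Unitization ℂ A)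

theorem norm_peak (g : P.Peak) : ‖((g.1 : A) : Unitization ℂ A)‖ ≤ 1 := by
  rw [Unitization.norm_inr]; exact g.2.1

theorem exists_peak : Nonempty P.Peak := by
  have := P.closed
  obtain ⟨d₀, hd₀⟩ := P.nonzero
  set z := P.χ d₀ with hz
  have hzn : (Complex.normSq z : ℂ) ≠ 0 := by exact_mod_cast (Complex.normSq_pos.2 hd₀).ne'
  set h : P.D := (Complex.normSq z : ℂ)⁻¹ • (star d₀ * d₀) with hh
  have hs : IsSelfAdjoint h :=
    IsSelfAdjoint.smul (by simp [IsSelfAdjoint]) (IsSelfAdjoint.star_mul_self d₀)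
  have h1 : P.χ h = ((1 : ℝ) : ℂ) := by
    rw [hh, map_smul, map_mul, map_star, ← hz, smul_eq_mul,
      show star z * z = (Complex.normSq z : ℂ) from by rw [Complex.normSq_eq_conj_mul_self]; rfl,
      inv_mul_cancel₀ hzn]
    simp
  refine ⟨⟨cfcₙ fF h, norm_cfcₙ_le fun x _ => ?_, ?_⟩⟩
  · rw [Real.norm_eq_abs, abs_of_nonneg (fF_mem x).1]; exact (fF_mem x).2
  · rw [char_cfcₙ P.χ hs h1 continuous_fF (by simp [fF])]
    norm_num [fF]

theorem norm_eq_one (g : P.Peak) : ‖g.1‖ = 1 := by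
  have := P.closed
  refine le_antisymm g.2.1 ?_
  have h := NonUnitalStarAlgHom.norm_apply_le P.χ g.1
  rw [g.2.2, norm_one] at h
  exact h

/-- The states of value one at every `g* g` exist. -/
theorem exists_state : ∀ s : Finset P.Peak,
    ∃ ψ ∈ states (Unitization ℂ A), ∀ g ∈ s, ψ (P.sq g) = 1 := by
  classical
  intro s
  have hprod : ∃ p : P.Peak, ∀ g ∈ s, ∃ q : Unitization ℂ A, ‖q‖ ≤ 1 ∧
      ((p.1 : A) : Unitization ℂ A) = q * ((g.1 : A) : Unitization ℂ A) := by
    induction s using Finset.induction with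
    | empty => exact ⟨Classical.choice P.exists_peak, fun g hg => absurd hg (by simp)⟩
    | insert g s _ ih =>
      obtain ⟨p, hp⟩ := ih
      refine ⟨⟨g.1 * p.1, (norm_mul_le _ _).trans (mul_le_one₀ g.2.1 (norm_nonneg _) p.2.1),
        by rw [map_mul, g.2.2, p.2.2, one_mul]⟩, fun g' hg' => ?_⟩
      have e : (((g.1 * p.1 : P.D) : A) : Unitization ℂ A) =
          ((g.1 : A) : Unitization ℂ A) * ((p.1 : A) : Unitization ℂ A) :=
        Unitization.inr_mul ℂ _ _
      rcases Finset.mem_insert.1 hg' with rfl | h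
      · refine ⟨((p.1 : A) : Unitization ℂ A), P.norm_peak p, ?_⟩
        rw [← Unitization.inr_mul, ← P.comm _ g'.1.2 _ p.1.2]
        exact e.trans (Unitization.inr_mul ℂ _ _).symm
      · obtain ⟨q, hq, hpq⟩ := hp g' h
        refine ⟨((g.1 : A) : Unitization ℂ A) * q,
          (norm_mul_le _ _).trans (mul_le_one₀ (P.norm_peak g) (norm_nonneg _) hq), ?_⟩
        show (((g.1 * p.1 : P.D) : A) : Unitization ℂ A) = _
        rw [e, hpq, mul_assoc]
  obtain ⟨p, hp⟩ := hprod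
  have hpn : ‖((p.1 : A) : Unitization ℂ A)‖ = 1 := by
    rw [Unitization.norm_inr]; exact P.norm_eq_one p
  obtain ⟨ψ, hψ, hψp⟩ := exists_norming_state (x := ((p.1 : A) : Unitization ℂ A))
    (norm_pos_iff.1 (by rw [hpn]; norm_num))
  rw [CStarRing.norm_star_mul_self, hpn, one_mul] at hψp
  obtain ⟨K, _, _, _, ρ, ξ, hξ, -, hin⟩ := exists_cyclic hψ
  rw [hin, inner_star_mul] at hψp
  have hp1 : ‖ρ ((p.1 : A) : Unitization ℂ A) ξ‖ ^ 2 = 1 := by exact_mod_cast hψp
  refine ⟨ψ, hψ, fun g hg => ?_⟩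
  obtain ⟨q, hq, hpq⟩ := hp g hg
  have op : ∀ (y : Unitization ℂ A) (x : K), ‖ρ y x‖ ≤ ‖y‖ * ‖x‖ := fun y x =>
    ((ρ y).le_opNorm x).trans
      (mul_le_mul_of_nonneg_right (NonUnitalStarAlgHom.norm_apply_le ρ y) (norm_nonneg x))
  have h1 : ‖ρ ((g.1 : A) : Unitization ℂ A) ξ‖ ≤ 1 :=
    (op _ _).trans (by rw [hξ, mul_one]; exact P.norm_peak g)
  have h2 : ‖ρ ((p.1 : A) : Unitization ℂ A) ξ‖ ≤ ‖ρ ((g.1 : A) : Unitization ℂ A) ξ‖ := by
    rw [hpq, map_mul, mul_apply_eq_comp]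
    exact (op _ _).trans (mul_le_of_le_one_left (norm_nonneg _) hq)
  rw [hin, sq, inner_star_mul]
  have : ‖ρ ((g.1 : A) : Unitization ℂ A) ξ‖ ^ 2 = 1 :=
    le_antisymm (pow_le_one₀ (norm_nonneg _) h1)
      (hp1.symm.le.trans (pow_le_pow_left₀ (norm_nonneg _) h2 2))
  rw [this, Complex.ofReal_one]

/-- The inclusion of the subalgebra in the unitization. -/
theorem exists_incl : ∃ ι : P.D →⋆ₙₐ[ℂ] Unitization ℂ A,
    ∀ x : P.D, ι x = ((x : A) : Unitization ℂ A) :=
  ⟨(Unitization.inrNonUnitalStarAlgHom ℂ A).comp (NonUnitalStarSubalgebraClass.subtype P.D),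
    fun _ => rfl⟩

/-- Peak elements on which `d` is nearly the scalar `χ d`. -/
theorem exists_near (d : P.D) {δ : ℝ} (hδ : 0 < δ) (ι : P.D →⋆ₙₐ[ℂ] Unitization ℂ A)
    (hι : ∀ x : P.D, ι x = ((x : A) : Unitization ℂ A)) :
    ∃ g : P.Peak, ‖ι (d * g.1 - P.χ d • g.1)‖ * ‖ι (d * g.1 - P.χ d • g.1)‖ ≤ δ := by
  have := P.closed
  obtain ⟨e⟩ := P.exists_peak
  have hιn : ∀ x : P.D, ‖ι x‖ = ‖x‖ := fun x => by rw [hι, Unitization.norm_inr]; rfl
  have hιc : Continuous ι := AddMonoidHomClass.continuous_of_bound ι 1 fun a => by simp [hιn]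
  obtain ⟨k, hk⟩ : ∃ k : P.D, k = d * e.1 - P.χ d • e.1 := ⟨_, rfl⟩
  have hχk : P.χ (star k * k) = ((0 : ℝ) : ℂ) := by
    rw [map_mul, map_star, hk, map_sub, map_mul, map_smul, e.2.2]
    simp
  have hks : IsSelfAdjoint (star k * k) := IsSelfAdjoint.star_mul_self k
  set q : ℝ → ℝ := fun t => min 1 (max 0 (t / δ)) with hq
  have hqc : Continuous q := by fun_prop
  have hq0 : q 0 = 0 := by simp [hq]
  have hS : IsSelfAdjoint (star (ι k) * ι k) := IsSelfAdjoint.star_mul_self _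
  have hQ : ι (cfcₙ q (star k * k)) = cfc q (star (ι k) * ι k) := by
    rw [NonUnitalStarAlgHom.map_cfcₙ ι q _ hqc.continuousOn hq0 hιc hks (hks.map ι),
      map_mul, map_star, cfcₙ_eq_cfc hqc.continuousOn hq0]
  set R := cfc (fun t : ℝ => 1 - q t) (star (ι k) * ι k) with hR
  have hR' : 1 - ι (cfcₙ q (star k * k)) = R := by
    rw [hQ, hR, cfc_sub (fun _ : ℝ => 1) q _ continuous_const.continuousOn hqc.continuousOn,
      cfc_const_one ℝ _ hS]
  have hRn : ‖R‖ ≤ 1 := norm_cfc_le zero_le_one fun t _ => by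
    have m1 : (0 : ℝ) ≤ q t := le_min zero_le_one (le_max_left _ _)
    have m2 : q t ≤ 1 := min_le_left _ _
    rw [Real.norm_eq_abs, abs_of_nonneg (by linarith)]; linarith
  have hgR : ι (e.1 - e.1 * cfcₙ q (star k * k)) = ι e.1 * R := by
    rw [← hR', map_sub, map_mul, mul_sub, mul_one]
  refine ⟨⟨e.1 - e.1 * cfcₙ q (star k * k), ?_, ?_⟩, ?_⟩
  · rw [← hιn, hgR, hι]
    exact (norm_mul_le _ _).trans (mul_le_one₀ (P.norm_peak e) (norm_nonneg _) hRn)
  · rw [map_sub, map_mul, char_cfcₙ P.χ hks hχk hqc hq0, hq0, e.2.2]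
    simp
  · have he : ι (d * (e.1 - e.1 * cfcₙ q (star k * k)) -
        P.χ d • (e.1 - e.1 * cfcₙ q (star k * k))) = ι k * R := by
      rw [map_sub, map_mul, map_smul, hgR, hk, map_sub, map_mul, map_smul, sub_mul, mul_assoc,
        smul_mul_assoc]
    show ‖ι (d * (e.1 - e.1 * cfcₙ q (star k * k)) -
        P.χ d • (e.1 - e.1 * cfcₙ q (star k * k)))‖ * _ ≤ δ
    rw [he]
    exact norm_mul_cutoff (ι k) hδ

/-- In any representation, a vector fixed by every `g* g` is an eigenvector of the subalgebra. -/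
theorem eigen_of_fixed {K : Type*} [NormedAddCommGroup K] [InnerProductSpace ℂ K]
    [CompleteSpace K] (ρ : Unitization ℂ A →⋆ₐ[ℂ] (K →L[ℂ] K)) {ξ : K}
    (hfix : ∀ g, ρ (P.sq g) ξ = ξ) (d : P.D) :
    ρ ((d : A) : Unitization ℂ A) ξ = P.χ d • ξ := by
  rw [← sub_eq_zero, ← norm_le_zero_iff]
  refine le_of_forall_pos_le_add fun ε hε => ?_
  rw [zero_add]
  set M : ℝ := ‖ξ‖ + 1 with hM
  have hεM : 0 < ε / M := by positivity
  obtain ⟨ι, hι⟩ := P.exists_incl
  obtain ⟨g, hg⟩ := P.exists_near d (pow_pos hεM 2) ι hι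
  set z := ι (d * g.1 - P.χ d • g.1) with hz
  have hz' : ‖z‖ ≤ ε / M := by nlinarith [norm_nonneg z]
  have hfix' : ρ (star (ι g.1) * ι g.1) ξ = ξ := by rw [hι]; exact hfix g
  have hcm : ι d * star (ι g.1) = star (ι g.1) * ι d := by
    rw [← map_star, ← map_mul, ← map_mul]
    congr 1
    exact Subtype.ext (P.comm _ d.2 _ (star g.1).2)
  calc ‖ρ ((d : A) : Unitization ℂ A) ξ - P.χ d • ξ‖ = ‖ρ (star (ι g.1) * z) ξ‖ := by
        conv_lhs => rw [← hfix']
        rw [hz, map_sub ι, map_mul ι, map_smul ι, mul_sub, mul_smul_comm, ← mul_assoc, ← hcm,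
          mul_assoc, map_sub, map_smul, sub_apply, smul_apply, map_mul ρ (ι d), mul_apply_eq_comp,
          hι d]
    _ ≤ ‖star (ι g.1) * z‖ * ‖ξ‖ :=
        ((ρ _).le_opNorm ξ).trans
          (mul_le_mul_of_nonneg_right (NonUnitalStarAlgHom.norm_apply_le ρ _) (norm_nonneg ξ))
    _ ≤ (1 * (ε / M)) * M := by
        refine mul_le_mul ((norm_mul_le _ _).trans (mul_le_mul ?_ hz' (norm_nonneg _) zero_le_one))
          (by linarith) (norm_nonneg _) (by positivity)
        rw [norm_star, hι]; exact P.norm_peak g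
    _ = ε := by rw [one_mul, div_mul_cancel₀ ε (by positivity)]

/-- A state extending the character restricts to the same functional as every other one. -/
theorem eq_of_extends {φ ψ : WeakDual ℂ (Unitization ℂ A)} (hφ : φ ∈ states (Unitization ℂ A))
    (hψ : ψ ∈ states (Unitization ℂ A))
    (hφd : ∀ d : P.D, φ ((d : A) : Unitization ℂ A) = P.χ d)
    (hψd : ∀ d : P.D, ψ ((d : A) : Unitization ℂ A) = P.χ d) (a : A) :
    φ (a : Unitization ℂ A) = ψ (a : Unitization ℂ A) := by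
  have mk : ∀ θ : WeakDual ℂ (Unitization ℂ A), θ ∈ states (Unitization ℂ A) →
      (∀ d : P.D, θ ((d : A) : Unitization ℂ A) = P.χ d) →
      ∃ L : A →L[ℂ] ℂ, IsStateExtension P.χ L ∧ ∀ b, L b = θ (b : Unitization ℂ A) := by
    intro θ hθ hθd
    let l : A →ₗ[ℂ] ℂ :=
      { toFun := fun b => θ (b : Unitization ℂ A)
        map_add' := fun b c => by simp
        map_smul' := fun c b => by simp }
    have hb : ∀ b, ‖l b‖ ≤ 1 * ‖b‖ := fun b =>
      (hθ.1 _).trans (le_of_eq (by rw [Unitization.norm_inr, one_mul]))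
    refine ⟨l.mkContinuous 1 hb, ⟨l.mkContinuous_norm_le zero_le_one hb, fun b => ?_, hθd⟩,
      fun b => rfl⟩
    show 0 ≤ θ ((star b * b : A) : Unitization ℂ A)
    rw [Unitization.inr_mul, Unitization.inr_star]
    exact state_nonneg hθ _
  obtain ⟨L, hL, hLe⟩ := mk φ hφ hφd
  obtain ⟨M, hM, hMe⟩ := mk ψ hψ hψd
  rw [← hLe, ← hMe, P.unique L M hL hM]

/-- A state of value one at every `g* g` extends the character. -/
theorem extends_of_value {ψ : WeakDual ℂ (Unitization ℂ A)} (hψ : ψ ∈ states (Unitization ℂ A))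
    (h : ∀ g, ψ (P.sq g) = 1) (d : P.D) : ψ ((d : A) : Unitization ℂ A) = P.χ d := by
  obtain ⟨K, _, _, _, ρ, ξ, hξ, -, hin⟩ := exists_cyclic hψ
  have hfix : ∀ g, ρ (P.sq g) ξ = ξ := fun g => by
    refine fixed_of_inner hξ ((hin _).symm.trans (h g)) ?_
    refine ((ρ _).le_opNorm ξ).trans ?_
    rw [hξ, mul_one]
    refine (NonUnitalStarAlgHom.norm_apply_le ρ _).trans ((norm_mul_le _ _).trans ?_)
    rw [norm_star]
    exact mul_le_one₀ (P.norm_peak g) (norm_nonneg _) (P.norm_peak g)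
  rw [hin, P.eigen_of_fixed ρ hfix, inner_smul_right, inner_self_eq_norm_sq_to_K, hξ]
  simp

/-- The irreducible representation of the unique extension, with excision at its vector. -/
theorem exists_rep : ∃ (H : Type u) (_ : NormedAddCommGroup H) (_ : InnerProductSpace ℂ H)
    (_ : CompleteSpace H) (ρ : Unitization ℂ A →⋆ₐ[ℂ] (H →L[ℂ] H)) (ξ : H), ‖ξ‖ = 1 ∧
    IsIrreducibleRep (ρ.toNonUnitalStarAlgHom.comp (Unitization.inrNonUnitalStarAlgHom ℂ A)) ∧
    (∀ d : P.D, ρ ((d : A) : Unitization ℂ A) ξ = P.χ d • ξ) ∧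
    ∀ (s : Finset A) (ε : ℝ), 0 < ε → ∃ c : Unitization ℂ A, ‖c‖ ≤ 1 ∧ ρ c ξ = ξ ∧
      ∀ b ∈ s, ‖(b : Unitization ℂ A) * c‖ ^ 2 ≤ ‖ρ (b : Unitization ℂ A) ξ‖ ^ 2 + ε := by
  classical
  have hsq : ∀ g, ‖P.sq g‖ ≤ 1 := fun g => (norm_mul_le _ _).trans (by
    rw [norm_star]; exact mul_le_one₀ (P.norm_peak g) (norm_nonneg _) (P.norm_peak g))
  obtain ⟨φ, hφ, hφe⟩ := exists_extreme P.sq hsq P.exists_state
  obtain ⟨H, i1, i2, i3, ρ, ξ, hξ, hd, hin⟩ := exists_cyclic hφ.1
  have hfix : ∀ g, ρ (P.sq g) ξ = ξ := fun g => by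
    refine fixed_of_inner hξ ((hin _).symm.trans (hφe g)) ?_
    refine ((ρ _).le_opNorm ξ).trans ?_
    rw [hξ, mul_one]
    exact (NonUnitalStarAlgHom.norm_apply_le ρ _).trans (hsq g)
  have heig := P.eigen_of_fixed ρ hfix
  refine ⟨H, i1, i2, i3, ρ, ξ, hξ, ⟨?_, fun K hK hinv => ?_⟩, heig, fun s ε hε => ?_⟩
  · obtain ⟨d, hd'⟩ := P.nonzero
    refine ⟨d, fun h0 => ?_⟩
    have h := congrArg (fun T : H →L[ℂ] H => T ξ) h0
    have h' : ρ ((d : A) : Unitization ℂ A) ξ = 0 := by simpa using h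
    rw [heig d] at h'
    rcases smul_eq_zero.1 h' with h | h
    · exact hd' h
    · rw [h, norm_zero] at hξ; exact zero_ne_one hξ
  · refine extreme_irreducible hφ ρ hξ hd hin K hK fun y x hx => ?_
    rw [← Unitization.inl_fst_add_inr_snd_eq y, map_add, add_apply]
    refine K.add_mem ?_ (hinv y.snd x hx)
    rw [← Unitization.algebraMap_eq_inl, AlgHomClass.commutes, Algebra.algebraMap_eq_smul_one]
    exact K.smul_mem _ hx
  let nb : A → Unitization ℂ A := fun b => star (b : Unitization ℂ A) * (b : Unitization ℂ A)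
  have hval : ∀ b : A, (φ (nb b)).re = ‖ρ (b : Unitization ℂ A) ξ‖ ^ 2 := fun b => by
    rw [hin, inner_star_mul, Complex.ofReal_re]
  let bad : Set (WeakDual ℂ (Unitization ℂ A)) :=
    ⋃ b ∈ s, {ψ | ‖ρ (b : Unitization ℂ A) ξ‖ ^ 2 + ε ≤ (ψ (nb b)).re}
  have hbad : IsClosed bad := isClosed_biUnion_finset fun b _ =>
    isClosed_le continuous_const (Complex.continuous_re.comp (WeakDual.eval_continuous _))
  let near : P.Peak × ℕ → Set (WeakDual ℂ (Unitization ℂ A)) :=
    fun i => {ψ | 1 - 1 / ((i.2 : ℝ) + 1) ≤ (ψ (P.sq i.1)).re}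
  have hnear : ∀ i, IsClosed (near i) := fun i =>
    isClosed_le continuous_const (Complex.continuous_re.comp (WeakDual.eval_continuous _))
  have hempty : (states (Unitization ℂ A) ∩ bad) ∩ ⋂ i, near i = ∅ := by
    refine Set.eq_empty_iff_forall_notMem.2 fun ψ hψ => ?_
    obtain ⟨⟨hψs, hψb⟩, hψn⟩ := hψ
    obtain ⟨b, -, hb⟩ := Set.mem_iUnion₂.1 hψb
    have h1 : ∀ g, ψ (P.sq g) = 1 := fun g => by
      have hle : ‖ψ (P.sq g)‖ ≤ 1 := (hψs.1 _).trans (hsq g)
      have hre : (ψ (P.sq g)).re = 1 := by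
        refine le_antisymm ((Complex.re_le_norm _).trans hle) (le_of_forall_pos_le_add fun η hη => ?_)
        obtain ⟨n, hn⟩ := exists_nat_one_div_lt hη
        have h3 : 1 - 1 / ((n : ℝ) + 1) ≤ (ψ (P.sq g)).re := Set.mem_iInter.1 hψn (g, n)
        linarith
      refine Complex.ext hre ?_
      have := Complex.normSq_eq_norm_sq (ψ (P.sq g))
      rw [Complex.normSq_apply, hre] at this
      have : ‖ψ (P.sq g)‖ ^ 2 ≤ 1 := pow_le_one₀ (norm_nonneg _) hle
      rw [Complex.one_im]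
      nlinarith [mul_self_nonneg (ψ (P.sq g)).im]
    have heq : ψ (nb b) = φ (nb b) := by
      have := P.eq_of_extends hψs hφ.1 (P.extends_of_value hψs h1)
        (P.extends_of_value hφ.1 hφe) (star b * b)
      rwa [Unitization.inr_mul, Unitization.inr_star] at this
    simp only [Set.mem_ofPred_eq, heq, hval] at hb
    linarith
  obtain ⟨t, ht⟩ := (isCompact_states.inter_right hbad).elim_finite_subfamily_closed near hnear hempty
  set η : ℝ := 1 / ((t.sup Prod.snd : ℕ) + 1) with hη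
  have hη0 : 0 < η := by positivity
  set r : Unitization ℂ A := ∑ i ∈ t, (1 - P.sq i.1) with hr
  have hrs : IsSelfAdjoint r := by
    refine isSelfAdjoint_sum _ fun i _ => (IsSelfAdjoint.one _).sub ?_
    exact IsSelfAdjoint.star_mul_self _
  set h : ℝ → ℝ := fun x => max 0 (min 1 (1 - x / η)) with hh
  have hhc : Continuous h := by fun_prop
  set c : Unitization ℂ A := cfc h r with hc
  have hcn : ‖c‖ ≤ 1 := norm_cfc_le zero_le_one fun x _ => by
    rw [Real.norm_eq_abs, abs_of_nonneg (le_max_left _ _)]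
    exact max_le zero_le_one (min_le_left _ _)
  have hcξ : ρ c ξ = ξ := by
    have hr0 : ρ r ξ = ((0 : ℝ) : ℂ) • ξ := by
      rw [hr, map_sum, sum_apply, Complex.ofReal_zero, zero_smul]
      refine Finset.sum_eq_zero fun i _ => ?_
      rw [map_sub, map_one, sub_apply, hfix]
      exact sub_self ξ
    have hρc : Continuous ρ := AddMonoidHomClass.continuous_of_bound ρ 1 fun a => by
      simpa using NonUnitalStarAlgHom.norm_apply_le ρ a
    rw [hc, StarAlgHomClass.map_cfc ρ h r hhc.continuousOn hρc hrs (hrs.map ρ),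
      cfc_apply_eigen (hrs.map ρ) hr0 hhc]
    simp [hh]
  refine ⟨c, hcn, hcξ, fun b hb => ?_⟩
  set x : Unitization ℂ A := (b : Unitization ℂ A) * c with hx
  by_cases hx0 : x = 0
  · rw [hx0, norm_zero, zero_pow two_ne_zero]; positivity
  obtain ⟨θ, hθ, hθx⟩ := exists_norming_state hx0
  obtain ⟨K, _, _, _, σ, ζ, hζ, -, hθin⟩ := exists_cyclic hθ
  rw [CStarRing.norm_star_mul_self, hθin, inner_star_mul] at hθx
  have hxv : ‖x‖ * ‖x‖ = ‖σ x ζ‖ ^ 2 := by exact_mod_cast hθx.symm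
  set v := σ c ζ with hv
  have hxv' : σ x ζ = σ (b : Unitization ℂ A) v := by rw [hx, map_mul, mul_apply_eq_comp]
  have hvn : ‖v‖ ≤ 1 := by
    refine ((σ c).le_opNorm ζ).trans ?_
    rw [hζ, mul_one]
    exact (NonUnitalStarAlgHom.norm_apply_le σ c).trans hcn
  have hv0 : v ≠ 0 := fun h0 => by
    rw [hxv', h0, map_zero, norm_zero] at hxv
    have : 0 < ‖x‖ := norm_pos_iff.2 hx0
    nlinarith
  obtain ⟨ψ, hψ, hψe⟩ := exists_vector_state σ (norm_smul_inv_norm hv0 : ‖((‖v‖ : ℂ))⁻¹ • v‖ = 1)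
  have hψv : ∀ y, ψ y = ((‖v‖ ^ 2 : ℝ) : ℂ)⁻¹ * ⟪v, σ y v⟫_ℂ := fun y => by
    rw [hψe, map_smul, inner_smul_left, inner_smul_right, map_inv₀]
    simp only [Complex.conj_ofReal, RCLike.conj_ofReal]
    push_cast
    ring_nf
    exact mul_comm _ _
  have hψr : (ψ r).re ≤ η := by
    let := CStarAlgebra.spectralOrder (Unitization ℂ A)
    have := CStarAlgebra.spectralOrderedRing (Unitization ℂ A)
    have hpos : 0 ≤ cfc (fun x => h x * ((η - x) * h x)) r := by
      refine cfc_nonneg fun x _ => ?_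
      rcases le_total x η with h1 | h1
      · exact mul_nonneg (le_max_left _ _) (mul_nonneg (by linarith) (le_max_left _ _))
      · have : h x = 0 := by
          have : 1 ≤ x / η := (one_le_div hη0).2 h1
          simp only [hh]
          rw [max_eq_left]
          exact (min_le_right _ _).trans (by linarith)
        simp [this]
    obtain ⟨y, hy⟩ := CStarAlgebra.nonneg_iff_eq_star_mul_self.1 hpos
    have he : cfc (fun x => h x * ((η - x) * h x)) r = c * ((((η : ℂ) • 1) - r) * c) := by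
      rw [sandwich_cfc r (f := h) (g := fun x : ℝ => η - x) hhc
          (continuous_const.sub continuous_id),
        cfc_sub (fun _ : ℝ => η) (fun x : ℝ => x) r continuous_const.continuousOn
          continuous_id.continuousOn,
        cfc_const η r hrs, cfc_id' ℝ r hrs,
        IsScalarTower.algebraMap_apply ℝ ℂ (Unitization ℂ A), Algebra.algebraMap_eq_smul_one]
      rfl
    have h0 := (Complex.nonneg_iff.1 (state_nonneg hθ y)).1
    rw [← hy, he, hθin, map_mul, mul_apply_eq_comp, map_mul, mul_apply_eq_comp, ← hv] at h0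
    have hcs : star c = c := (cfc_predicate h r : IsSelfAdjoint c).star_eq
    rw [← ContinuousLinearMap.adjoint_inner_left, ← ContinuousLinearMap.star_eq_adjoint,
      ← map_star, hcs, ← hv, map_sub, map_smul, map_one, sub_apply, smul_apply, show (1 : K →L[ℂ] K) v = v from rfl,
      inner_sub_right, inner_smul_right, Complex.sub_re, inner_self_eq_norm_sq_to_K] at h0
    rw [hψv]
    have hp : 0 < ‖v‖ ^ 2 := pow_pos (norm_pos_iff.2 hv0) 2
    rw [← Complex.ofReal_inv, Complex.re_ofReal_mul, inv_mul_le_iff₀ hp]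
    have : ((η : ℂ) * ((‖v‖ : ℂ)) ^ 2).re = η * ‖v‖ ^ 2 := by
      rw [← Complex.ofReal_pow, ← Complex.ofReal_mul, Complex.ofReal_re]
    erw [this] at h0
    linarith
  have hin_t : ψ ∈ ⋂ i ∈ t, near i := Set.mem_iInter₂.2 fun i hi => by
    show 1 - 1 / ((i.2 : ℝ) + 1) ≤ (ψ (P.sq i.1)).re
    have hone : ∀ g, (ψ (P.sq g)).re ≤ 1 := fun g =>
      (Complex.re_le_norm _).trans ((hψ.1 _).trans (hsq g))
    have hsum : (1 - (ψ (P.sq i.1)).re) ≤ (ψ r).re := by
      rw [hr, map_sum, Complex.re_sum]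
      refine le_trans (le_of_eq ?_) (Finset.single_le_sum (fun j _ => ?_) hi)
      · rw [map_sub, hψ.2, Complex.sub_re, Complex.one_re]
      · rw [map_sub, hψ.2, Complex.sub_re, Complex.one_re]
        linarith [hone j.1]
    have hηi : η ≤ 1 / ((i.2 : ℝ) + 1) := by
      rw [hη]
      have : i.2 ≤ t.sup Prod.snd := Finset.le_sup (f := Prod.snd) hi
      gcongr
    linarith
  have hnb : (ψ (nb b)).re < ‖ρ (b : Unitization ℂ A) ξ‖ ^ 2 + ε := by
    by_contra hge
    push Not at hge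
    exact Set.notMem_empty ψ (ht ▸ ⟨⟨hψ, Set.mem_iUnion₂.2 ⟨b, hb, hge⟩⟩, hin_t⟩)
  rw [hψv, inner_star_mul, ← Complex.ofReal_inv, ← Complex.ofReal_mul, Complex.ofReal_re] at hnb
  rw [pow_two, hxv, hxv']
  have hp : 0 < ‖v‖ ^ 2 := pow_pos (norm_pos_iff.2 hv0) 2
  rw [inv_mul_lt_iff₀ hp] at hnb
  refine hnb.le.trans (mul_le_of_le_one_left (by positivity) (pow_le_one₀ (norm_nonneg _) hvn))

end DiagPoint

end Vale.Agent.P070
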